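import Mathlib

/-!
P195, window machine: interface.

Input: a finite-dimensional dg algebra `T` in degrees `0..width` (`DGA`), a twisted
complex of cells over it (`Cells`: finitely many cells in each degree, `d c = ∑ D c c' • c'`),
and targets (dg modules, `Target`). Cochains of degree `E` are left-linear maps
`c ↦ φ c ∈ U_{deg c - E}`; `IsCocycle` is stated without signs and `delta` carries the
sign `(-1)^(deg c)`.
-/

namespace P195.Window

open Module

/-- A dg algebra with a grading by projections; homological degrees, `d` lowers. -/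
structure DGA (k T : Type) [Field k] [Ring T] [Algebra k T] where
  width : ℕ
  pr : ℤ → T →ₗ[k] T
  pr_pr : ∀ m n a, pr m (pr n a) = if m = n then pr n a else 0
  sum_pr : ∀ a, ∑ n ∈ Finset.range (width + 1), pr n a = a
  one_mem : pr 0 1 = 1
  mul_mem : ∀ (m n : ℤ) a b, pr m a = a → pr n b = b → pr (m + n) (a * b) = a * b
  d : T →ₗ[k] T
  J : T →ₐ[k] T
  J_apply : ∀ (n : ℕ) a, pr n a = a → J a = ((-1 : k) ^ n) • a
  d_mem : ∀ (n : ℤ) a, pr n a = a → pr (n - 1) (d a) = d a
  d_d : ∀ a, d (d a) = 0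
  d_mul : ∀ a b, d (a * b) = d a * b + J a * d b

variable {k T : Type} [Field k] [Ring T] [Algebra k T]

/-- The elements of degree `n`. -/
def DGA.G (R : DGA k T) (n : ℤ) : Submodule k T := LinearMap.ker (R.pr n - LinearMap.id)

/-- A semifree complex given by cells. -/
structure Cells (R : DGA k T) where
  Cell : Type
  deg : Cell → ℕ
  finite_fiber : ∀ n, Finite {c // deg c = n}
  e : Cell → T
  e_mem : ∀ c, e c ∈ R.G 0
  e_idem : ∀ c, e c * e c = e c
  d_e : ∀ c, R.d (e c) = 0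
  D : Cell → (Cell →₀ T)
  D_lt : ∀ c c', D c c' ≠ 0 → deg c' < deg c
  D_mem : ∀ c c', D c c' ∈ R.G ((deg c : ℤ) - 1 - deg c')
  e_D : ∀ c c', e c * D c c' = D c c'
  D_e : ∀ c c', D c c' * e c' = D c c'
  D_sq : ∀ c c'', R.d (D c c'') + ((D c).sum fun c' a => R.J a * D c' c'') = 0

variable {R : DGA k T}

/-- Chains of degree `n`. -/
def Cells.IsChain (Q : Cells R) (n : ℤ) (x : Q.Cell →₀ T) : Prop :=
  ∀ c, x c ∈ R.G (n - Q.deg c) ∧ x c * Q.e c = x c

/-- The differential of the semifree complex. -/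
noncomputable def Cells.dQ (Q : Cells R) (x : Q.Cell →₀ T) : Q.Cell →₀ T :=
  x.mapRange R.d (map_zero _) + x.sum fun c t => (Q.D c).mapRange (R.J t * ·) (mul_zero _)

/-- No homology in positive degrees. -/
def Cells.Acyclic (Q : Cells R) : Prop :=
  ∀ n : ℤ, 0 < n → ∀ x, Q.IsChain n x → Q.dQ x = 0 → ∃ y, Q.IsChain (n + 1) y ∧ Q.dQ y = x

/-- A dg module used as a target. -/
structure Target (R : DGA k T) (U : Type) [AddCommGroup U] [Module k U] [Module T U] where
  G : ℤ → Submodule k U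
  smul_mem : ∀ (m n : ℤ) a u, a ∈ R.G m → u ∈ G n → a • u ∈ G (m + n)
  d : U →ₗ[k] U
  d_mem : ∀ (n : ℤ) u, u ∈ G n → d u ∈ G (n - 1)
  d_smul : ∀ a u, d (a • u) = R.d a • u + R.J a • d u

/-- The algebra as a target. -/
def Target.self (R : DGA k T) : Target R T where
  G := R.G
  smul_mem m n a u ha hu := by
    simp only [DGA.G, LinearMap.mem_ker, LinearMap.sub_apply, LinearMap.id_coe, id_eq,
      sub_eq_zero] at ha hu ⊢
    exact R.mul_mem m n a u ha hu
  d := R.d
  d_mem n u hu := by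
    simp only [DGA.G, LinearMap.mem_ker, LinearMap.sub_apply, LinearMap.id_coe, id_eq,
      sub_eq_zero] at hu ⊢
    exact R.d_mem n u hu
  d_smul := R.d_mul

variable {U : Type} [AddCommGroup U] [Module k U] [Module T U]

/-- `φ` is a cochain of degree `E`. -/
def Cells.IsCochain (Q : Cells R) (S : Target R U) (E : ℤ) (φ : Q.Cell → U) : Prop :=
  ∀ c, φ c ∈ S.G (Q.deg c - E) ∧ Q.e c • φ c = φ c

/-- `φ` commutes with the differentials. -/
def Cells.IsCocycle (Q : Cells R) (S : Target R U) (φ : Q.Cell → U) : Prop :=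
  ∀ c, S.d (φ c) = (Q.D c).sum fun c' a => a • φ c'

/-- The coboundary. -/
noncomputable def Cells.delta (Q : Cells R) (S : Target R U) (ψ : Q.Cell → U) : Q.Cell → U :=
  fun c => ((-1 : k) ^ Q.deg c) • (S.d (ψ c) - (Q.D c).sum fun c' a => a • ψ c')

/-- The cohomology in degree `E` vanishes. -/
def Cells.ExactAt (Q : Cells R) (S : Target R U) (E : ℤ) : Prop :=
  ∀ φ, Q.IsCochain S E φ → Q.IsCocycle S φ → ∃ ψ, Q.IsCochain S (E - 1) ψ ∧ Q.delta S ψ = φ

/-- A module in degree `0` resolved by the cells. -/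
structure Augmentation (Q : Cells R) (S : Target R U) where
  η : Q.Cell → U
  isCochain : Q.IsCochain S 0 η
  isCocycle : Q.IsCocycle S η
  concentrated : ∀ n : ℤ, n ≠ 0 → S.G n = ⊥
  top : S.G 0 = ⊤
  surj : ∀ u, ∃ x, Q.IsChain 0 x ∧ (x.sum fun c t => t • η c) = u
  exact : ∀ x, Q.IsChain 0 x → (x.sum fun c t => t • η c) = 0 →
    ∃ y, Q.IsChain 1 y ∧ Q.dQ y = x

/- Output of the machine (proved in `Window/Machine.lean`):

theorem counterexample [FiniteDimensional k T] [IsScalarTower k T Y] [IsScalarTower k T V]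
    (Q : Cells R) (hQ : Q.Acyclic) (SY : Target R Y) (aug : Augmentation Q SY)
    (hT : ∀ E : ℤ, 0 < E → Q.ExactAt (Target.self R) E)
    (hY : ∀ E : ℤ, 0 < E → Q.ExactAt SY E)
    (SV : Target R V) (hV0 : ∀ n : ℤ, n ≠ 0 → SV.G n = ⊥) (hVtop : SV.G 0 = ⊤)
    (E : ℤ) (hE : 0 < E) (hV : ¬ Q.ExactAt SV E) :
    ∃ (A : Type) (_ : Ring A) (_ : Algebra k A), FiniteDimensional k A ∧
      ∃ M : ModuleCat.{0} A, Module.Finite A M ∧ ¬ Projective M ∧
        ∀ i : ℕ, 1 ≤ i → Subsingleton (Ext M M i) ∧ Subsingleton (Ext M (ModuleCat.of A A) i)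
-/

end P195.Window
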