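import Vale.Agent.P195.Window.Basic

/-! P195, window machine: the window algebra. -/

namespace P195.Window

variable {k T : Type} [Field k] [Ring T] [Algebra k T] (R : DGA k T)

/-- The last position. -/
def DGA.L : ℕ := R.width + 1

theorem DGA.L_pos : 0 < R.L := Nat.succ_pos _

theorem DGA.width_lt_L : (R.width : ℤ) < R.L := by simp [DGA.L]

/-- Positions. -/
abbrev Pos : Type := Fin (R.L + 1)

/-- Matrices over the crossed product. -/
abbrev Mat : Type := Matrix (Pos R) (Pos R) (Cross R)

/-- The degree condition on the entry from `i` to `j`. -/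
def Fits (j i : Pos R) (a : Cross R) : Prop :=
  a.x ∈ R.G ((j : ℕ) - (i : ℕ)) ∧ a.y ∈ R.G ((j : ℕ) - (i : ℕ) + 1)

theorem Fits.mul {R : DGA k T} {j m i : Pos R} {a b : Cross R} (ha : Fits R j m a)
    (hb : Fits R m i b) : Fits R j i (a * b) := by
  constructor
  · exact add_mem (R.mul_G' ha.1 hb.1 (by ring)) (R.mul_G' ha.2 (R.d_G hb.1) (by ring))
  · refine add_mem (R.mul_G' ha.1 hb.2 (by ring)) (R.mul_G' ha.2 ?_ (by ring) (n := ((m : ℕ) : ℤ) - (i : ℕ)))
    exact add_mem (R.J_G hb.1) (R.d_G' hb.2 (by ring))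

/-- Matrices of the right degrees. -/
def Adm : Subalgebra k (Mat R) where
  carrier := {X | ∀ j i, Fits R j i (X j i)}
  zero_mem' _ _ := ⟨zero_mem _, zero_mem _⟩
  add_mem' hX hY j i := ⟨add_mem (hX j i).1 (hY j i).1, add_mem (hX j i).2 (hY j i).2⟩
  one_mem' j i := by
    by_cases h : j = i
    · subst h
      exact ⟨by simpa using R.one_mem', by simp⟩
    · simp [Matrix.one_apply_ne h, Fits]
  mul_mem' {X Y} hX hY j i := by
    constructor
    · rw [Matrix.mul_apply, Cross.sum_x]
      exact sum_mem fun m _ => ((hX j m).mul (hY m i)).1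
    · rw [Matrix.mul_apply, Cross.sum_y]
      exact sum_mem fun m _ => ((hX j m).mul (hY m i)).2
  algebraMap_mem' r j i := by
    rw [Algebra.algebraMap_eq_smul_one]
    by_cases h : j = i
    · subst h
      refine ⟨?_, by simp⟩
      simpa using Submodule.smul_mem _ r R.one_mem'
    · simp [Matrix.one_apply_ne h, Fits]

variable {R}

/-- The first normal coordinate of an entry: at the last position `y D` is rewritten. -/
def rawX (j i : Pos R) : Adm R →ₗ[k] T where
  toFun X := if (j : ℕ) = R.L then (X.1 j i).x - R.d (R.J (X.1 j i).y) else (X.1 j i).x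
  map_add' X Y := by split_ifs <;> simp; abel
  map_smul' r X := by split_ifs <;> simp [smul_sub]

/-- The second normal coordinate of an entry. -/
def rawY (j i : Pos R) : Adm R →ₗ[k] T where
  toFun X := if (j : ℕ) = R.L ∨ (i : ℕ) = 0 then 0 else (X.1 j i).y
  map_add' X Y := by split_ifs <;> simp
  map_smul' r X := by split_ifs <;> simp

theorem rawX_lt {j i : Pos R} (hj : (j : ℕ) ≠ R.L) (X : Adm R) : rawX j i X = (X.1 j i).x :=
  if_neg hj

theorem rawX_last {j i : Pos R} (hj : (j : ℕ) = R.L) (X : Adm R) :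
    rawX j i X = (X.1 j i).x - R.d (R.J (X.1 j i).y) :=
  if_pos hj

theorem rawY_of {j i : Pos R} (hj : (j : ℕ) ≠ R.L) (hi : (i : ℕ) ≠ 0) (X : Adm R) :
    rawY j i X = (X.1 j i).y :=
  if_neg (by simp [hj, hi])

theorem rawY_zero {j i : Pos R} (h : (j : ℕ) = R.L ∨ (i : ℕ) = 0) (X : Adm R) : rawY j i X = 0 :=
  if_pos h

/-- A negligible entry. -/
def Negl (j i : Pos R) (a : Cross R) : Prop :=
  if (j : ℕ) = R.L then a.x = R.d (R.J a.y) else a.x = 0 ∧ ((i : ℕ) ≠ 0 → a.y = 0)

theorem negl_zero (j i : Pos R) : Negl j i (0 : Cross R) := by unfold Negl; split_ifs <;> simp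

theorem Negl.add {j i : Pos R} {a b : Cross R} (ha : Negl j i a) (hb : Negl j i b) :
    Negl j i (a + b) := by
  unfold Negl at *
  split_ifs at * with h
  · simp [ha, hb]
  · exact ⟨by simp [ha.1, hb.1], fun hi => by simp [ha.2 hi, hb.2 hi]⟩

theorem negl_iff {j i : Pos R} (X : Adm R) :
    Negl j i (X.1 j i) ↔ rawX j i X = 0 ∧ rawY j i X = 0 := by
  unfold Negl
  split_ifs with h
  · simp [rawX_last h, rawY_zero (.inl h), sub_eq_zero]
  · rw [rawX_lt h]
    by_cases hi : (i : ℕ) = 0
    · simp [rawY_zero (.inr hi), hi]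
    · simp [rawY_of h hi, hi]

theorem Negl.left {j m i : Pos R} {a b : Cross R} (ha : Fits R j m a) (hb : Fits R m i b)
    (h : Negl m i b) : Negl j i (a * b) := by
  have hm := m.isLt; have hj := j.isLt; have hi := i.isLt
  have hw := R.width_lt_L
  unfold Negl at *
  by_cases hmL : (m : ℕ) = R.L
  · rw [if_pos hmL] at h
    have hdx : R.d b.x = 0 := by rw [h, R.d_d]
    have hjdy : R.J b.x + R.d b.y = 0 := by rw [h, R.J_d, R.J_J]; simp
    have e : a * b = ⟨a.x * b.x, a.x * b.y⟩ := by ext <;> simp [hdx, hjdy]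
    rw [e]
    by_cases hjL : (j : ℕ) = R.L
    · have ha0 : a.x ∈ R.G 0 := by have := ha.1; rwa [hjL, hmL, sub_self] at this
      rw [if_pos hjL]
      show a.x * b.x = R.d (R.J (a.x * b.y))
      rw [h, map_mul, R.d_mul, R.J_zero ha0, R.d_zero_deg ha0, R.J_zero ha0]
      simp
    · rw [if_neg hjL]
      have ha0 : a.x = 0 := R.G_eq_bot (.inl (by omega)) ha.1
      simp [ha0]
  · rw [if_neg hmL] at h
    by_cases hi0 : (i : ℕ) = 0
    · have hx : (a * b).x = 0 := by simp [h.1]
      by_cases hjL : (j : ℕ) = R.L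
      · rw [if_pos hjL, hx, R.G_eq_bot (.inr (by omega)) (ha.mul hb).2]
        simp
      · rw [if_neg hjL]
        exact ⟨hx, fun h' => absurd hi0 h'⟩
    · have hb0 : b = 0 := by ext <;> simp [h.1, h.2 hi0]
      rw [hb0, mul_zero]
      exact negl_zero j i

theorem Negl.right {j m i : Pos R} {a b : Cross R} (ha : Fits R j m a) (hb : Fits R m i b)
    (h : Negl j m a) : Negl j i (a * b) := by
  have hm := m.isLt; have hj := j.isLt; have hi := i.isLt
  unfold Negl at *
  by_cases hjL : (j : ℕ) = R.L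
  · rw [if_pos hjL] at h ⊢
    show a.x * b.x + a.y * R.d b.x = R.d (R.J (a.x * b.y + a.y * (R.J b.x + R.d b.y)))
    rw [h]
    simp [R.d_mul, R.J_d, R.d_d, R.J_J, mul_add]
  · rw [if_neg hjL] at h ⊢
    by_cases hm0 : (m : ℕ) = 0
    · by_cases hi0 : (i : ℕ) = 0
      · have hd : R.d b.x = 0 := R.d_zero_deg (by have := hb.1; rwa [hm0, hi0, sub_self] at this)
        exact ⟨by simp [h.1, hd], fun h' => absurd hi0 h'⟩
      · have hbx : b.x = 0 := R.G_eq_bot (.inl (by omega)) hb.1
        have hdy : R.d b.y = 0 := R.G_eq_bot (.inl (by omega)) (R.d_G hb.2)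
        simp [h.1, hbx, hdy]
    · have ha0 : a = 0 := by ext <;> simp [h.1, h.2 hm0]
      simp [ha0]

variable (R) in
/-- Matrices vanishing on every window module. -/
def negligible : Ideal (Adm R) where
  carrier := {X | ∀ j i, Negl j i (X.1 j i)}
  zero_mem' := negl_zero
  add_mem' hX hY j i := (hX j i).add (hY j i)
  smul_mem' Y X hX j i := by
    show Negl j i ((Y.1 * X.1) j i)
    rw [Matrix.mul_apply]
    exact Finset.sum_induction _ (Negl j i) (fun _ _ => Negl.add) (negl_zero j i)
      fun m _ => (hX m i).left (Y.2 j m) (X.2 m i)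

instance : (negligible R).IsTwoSided :=
  ⟨fun {X} Y hX j i => by
    show Negl j i ((X.1 * Y.1) j i)
    rw [Matrix.mul_apply]
    exact Finset.sum_induction _ (Negl j i) (fun _ _ => Negl.add) (negl_zero j i)
      fun m _ => (hX j m).right (X.2 j m) (Y.2 m i)⟩

variable (R) in
/-- The window algebra. -/
def Alg : Type := Adm R ⧸ negligible R

noncomputable instance : Ring (Alg R) := inferInstanceAs (Ring (Adm R ⧸ negligible R))

noncomputable instance : Algebra k (Alg R) :=
  inferInstanceAs (Algebra k (Adm R ⧸ negligible R))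

/-- The projection. -/
noncomputable def mk : Adm R →ₐ[k] Alg R := Ideal.Quotient.mkₐ k (negligible R)

theorem mk_surjective : Function.Surjective (mk (R := R)) :=
  Ideal.Quotient.mkₐ_surjective k _

instance [FiniteDimensional k T] : FiniteDimensional k (Alg R) :=
  Module.Finite.of_surjective (mk (R := R)).toLinearMap mk_surjective

theorem mk_eq_zero {X : Adm R} : mk X = 0 ↔ X ∈ negligible R := Ideal.Quotient.eq_zero_iff_mem

/-- A linear functional on `Adm` killing the negligible matrices, on the quotient. -/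
noncomputable def descend (f : Adm R →ₗ[k] T) (hf : ∀ X ∈ negligible R, f X = 0) :
    Alg R →ₗ[k] T where
  toFun a := Quotient.liftOn' a f fun X Y h => by
    have : X - Y ∈ negligible R := (Submodule.quotientRel_def _).1 h
    simpa [sub_eq_zero] using hf _ this
  map_add' a b := by
    obtain ⟨X, rfl⟩ := mk_surjective a
    obtain ⟨Y, rfl⟩ := mk_surjective b
    exact f.map_add X Y
  map_smul' r a := by
    obtain ⟨X, rfl⟩ := mk_surjective a
    exact f.map_smul r X

/-- First normal coordinate. -/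
noncomputable def cx (j i : Pos R) : Alg R →ₗ[k] T :=
  descend (rawX j i) fun X hX => ((negl_iff X).1 (hX j i)).1

/-- Second normal coordinate. -/
noncomputable def cy (j i : Pos R) : Alg R →ₗ[k] T :=
  descend (rawY j i) fun X hX => ((negl_iff X).1 (hX j i)).2

@[simp] theorem cx_mk (j i : Pos R) (X : Adm R) : cx j i (mk X) = rawX j i X := rfl
@[simp] theorem cy_mk (j i : Pos R) (X : Adm R) : cy j i (mk X) = rawY j i X := rfl

theorem alg_ext {a b : Alg R} (hx : ∀ j i, cx j i a = cx j i b)
    (hy : ∀ j i, cy j i a = cy j i b) : a = b := by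
  obtain ⟨X, rfl⟩ := mk_surjective a
  obtain ⟨Y, rfl⟩ := mk_surjective b
  rw [← sub_eq_zero, ← map_sub, mk_eq_zero]
  intro j i
  rw [negl_iff, map_sub, map_sub, sub_eq_zero, sub_eq_zero]
  exact ⟨hx j i, hy j i⟩

end P195.Window
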