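import Vale.Agent.P195.Window.Defs

/-! P195, window machine: elementary facts about the dg algebra, and the crossed product. -/

namespace P195.Window

variable {k T : Type} [Field k] [Ring T] [Algebra k T]

namespace DGA

variable (R : DGA k T)

theorem mem_G {n : ℤ} {a : T} : a ∈ R.G n ↔ R.pr n a = a := by
  simp [DGA.G, sub_eq_zero]

theorem pr_mem (n : ℤ) (a : T) : R.pr n a ∈ R.G n := by
  simp [R.mem_G, R.pr_pr]

theorem pr_of_mem {m n : ℤ} {a : T} (h : a ∈ R.G n) : R.pr m a = if m = n then a else 0 := by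
  rw [R.mem_G] at h
  conv_lhs => rw [← h, R.pr_pr]
  split_ifs <;> simp [h]

theorem pr_eq_zero {n : ℤ} (h : n < 0 ∨ (R.width : ℤ) < n) (a : T) : R.pr n a = 0 := by
  rw [← R.sum_pr a, map_sum]
  refine Finset.sum_eq_zero fun m hm => ?_
  rw [Finset.mem_range] at hm
  rw [R.pr_pr, if_neg (by omega)]

theorem G_eq_bot {n : ℤ} (h : n < 0 ∨ (R.width : ℤ) < n) {a : T} (ha : a ∈ R.G n) : a = 0 := by
  rw [← R.mem_G.1 ha, R.pr_eq_zero h]

@[elab_as_elim]
theorem induction_on {P : T → Prop} (a : T) (h0 : P 0) (hadd : ∀ a b, P a → P b → P (a + b))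
    (h : ∀ (n : ℕ) a, a ∈ R.G n → P a) : P a := by
  rw [← R.sum_pr a]
  exact Finset.sum_induction _ P hadd h0 fun n _ => h n _ (R.pr_mem n a)

theorem one_mem' : (1 : T) ∈ R.G 0 := R.mem_G.2 R.one_mem

theorem mul_G {m n : ℤ} {a b : T} (ha : a ∈ R.G m) (hb : b ∈ R.G n) : a * b ∈ R.G (m + n) :=
  R.mem_G.2 (R.mul_mem m n a b (R.mem_G.1 ha) (R.mem_G.1 hb))

theorem mul_G' {m n p : ℤ} {a b : T} (ha : a ∈ R.G m) (hb : b ∈ R.G n) (h : m + n = p) :
    a * b ∈ R.G p := h ▸ R.mul_G ha hb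

theorem d_G {n : ℤ} {a : T} (ha : a ∈ R.G n) : R.d a ∈ R.G (n - 1) :=
  R.mem_G.2 (R.d_mem n a (R.mem_G.1 ha))

theorem d_G' {n p : ℤ} {a : T} (ha : a ∈ R.G n) (h : n - 1 = p) : R.d a ∈ R.G p := h ▸ R.d_G ha

theorem J_of_mem {n : ℕ} {a : T} (ha : a ∈ R.G n) : R.J a = ((-1 : k) ^ n) • a :=
  R.J_apply n a (R.mem_G.1 ha)

theorem J_zero {a : T} (ha : a ∈ R.G 0) : R.J a = a := by
  simpa using R.J_of_mem (n := 0) ha

theorem J_G {n : ℤ} {a : T} (ha : a ∈ R.G n) : R.J a ∈ R.G n := by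
  rcases lt_or_ge n 0 with h | h
  · rw [R.G_eq_bot (.inl h) ha]; simp
  · lift n to ℕ using h
    rw [R.J_of_mem ha]
    exact Submodule.smul_mem _ _ ha

theorem J_pr (n : ℤ) (a : T) : R.pr n (R.J a) = R.J (R.pr n a) := by
  refine R.induction_on a (by simp) (fun a b ha hb => by simp [ha, hb]) fun m a ha => ?_
  rw [R.pr_of_mem (R.J_G ha), R.pr_of_mem ha, apply_ite R.J, map_zero]

theorem pr_d (n : ℤ) (a : T) : R.pr n (R.d a) = R.d (R.pr (n + 1) a) := by
  refine R.induction_on a (by simp) (fun a b ha hb => by simp [ha, hb]) fun m a ha => ?_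
  rw [R.pr_of_mem (R.d_G ha), R.pr_of_mem ha, apply_ite R.d, map_zero]
  exact if_congr (by omega) rfl rfl

theorem d_zero_deg {a : T} (ha : a ∈ R.G 0) : R.d a = 0 := R.G_eq_bot (.inl (by omega)) (R.d_G ha)

theorem J_J (a : T) : R.J (R.J a) = a := by
  refine R.induction_on a (by simp) (fun a b ha hb => by simp [ha, hb]) fun m a ha => ?_
  rw [R.J_of_mem ha, map_smul, R.J_of_mem ha, smul_smul, ← mul_pow]
  simp

theorem J_d (a : T) : R.J (R.d a) = - R.d (R.J a) := by
  refine R.induction_on a (by simp) (fun a b ha hb => by simp [ha, hb]; abel) fun m a ha => ?_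
  rcases m with _ | m
  · rw [Nat.cast_zero] at ha; rw [R.d_zero_deg ha, R.J_zero ha, R.d_zero_deg ha]; simp
  · rw [R.J_of_mem ha, map_smul, R.J_of_mem (n := m) (R.d_G' ha (by push_cast; ring)), pow_succ]
    simp

theorem d_J (a : T) : R.d (R.J a) = - R.J (R.d a) := by rw [R.J_d, neg_neg]

@[simp] theorem d_one : R.d 1 = 0 := by
  simpa using R.d_mul 1 1

end DGA

/-- The crossed product of `T` with a square-zero symbol `D`; `⟨x, y⟩` is `x + y D`. -/
@[ext]
structure Cross (R : DGA k T) where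
  x : T
  y : T

namespace Cross

variable {R : DGA k T}

instance : Zero (Cross R) := ⟨⟨0, 0⟩⟩
instance : One (Cross R) := ⟨⟨1, 0⟩⟩
instance : Add (Cross R) := ⟨fun a b => ⟨a.x + b.x, a.y + b.y⟩⟩
instance : Neg (Cross R) := ⟨fun a => ⟨-a.x, -a.y⟩⟩
instance : Sub (Cross R) := ⟨fun a b => ⟨a.x - b.x, a.y - b.y⟩⟩
instance : SMul k (Cross R) := ⟨fun r a => ⟨r • a.x, r • a.y⟩⟩
instance : Mul (Cross R) :=
  ⟨fun a b => ⟨a.x * b.x + a.y * R.d b.x, a.x * b.y + a.y * (R.J b.x + R.d b.y)⟩⟩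

@[simp] theorem zero_x : (0 : Cross R).x = 0 := rfl
@[simp] theorem zero_y : (0 : Cross R).y = 0 := rfl
@[simp] theorem one_x : (1 : Cross R).x = 1 := rfl
@[simp] theorem one_y : (1 : Cross R).y = 0 := rfl
@[simp] theorem add_x (a b : Cross R) : (a + b).x = a.x + b.x := rfl
@[simp] theorem add_y (a b : Cross R) : (a + b).y = a.y + b.y := rfl
@[simp] theorem neg_x (a : Cross R) : (-a).x = -a.x := rfl
@[simp] theorem neg_y (a : Cross R) : (-a).y = -a.y := rfl
@[simp] theorem sub_x (a b : Cross R) : (a - b).x = a.x - b.x := rfl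
@[simp] theorem sub_y (a b : Cross R) : (a - b).y = a.y - b.y := rfl
@[simp] theorem smul_x (r : k) (a : Cross R) : (r • a).x = r • a.x := rfl
@[simp] theorem smul_y (r : k) (a : Cross R) : (r • a).y = r • a.y := rfl
@[simp] theorem mul_x (a b : Cross R) : (a * b).x = a.x * b.x + a.y * R.d b.x := rfl
@[simp] theorem mul_y (a b : Cross R) : (a * b).y = a.x * b.y + a.y * (R.J b.x + R.d b.y) := rfl

instance : AddCommGroup (Cross R) where
  add_assoc a b c := by ext <;> simp [add_assoc]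
  zero_add a := by ext <;> simp
  add_zero a := by ext <;> simp
  add_comm a b := by ext <;> simp [add_comm]
  neg_add_cancel a := by ext <;> simp
  sub_eq_add_neg a b := by ext <;> simp [sub_eq_add_neg]
  nsmul := nsmulRec
  zsmul := zsmulRec

instance : Ring (Cross R) where
  mul_assoc a b c := by
    ext <;> simp [R.d_mul, R.d_d, R.J_d, mul_add, add_mul, mul_assoc, mul_neg] <;> abel
  one_mul a := by ext <;> simp
  mul_one a := by ext <;> simp
  left_distrib a b c := by ext <;> simp [mul_add] <;> abel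
  right_distrib a b c := by ext <;> simp [add_mul] <;> abel
  zero_mul a := by ext <;> simp
  mul_zero a := by ext <;> simp

instance : Module k (Cross R) where
  one_smul a := by ext <;> simp
  mul_smul r s a := by ext <;> simp [mul_smul]
  smul_zero r := by ext <;> simp
  smul_add r a b := by ext <;> simp [smul_add]
  add_smul r s a := by ext <;> simp [add_smul]
  zero_smul a := by ext <;> simp

instance : Algebra k (Cross R) :=
  Algebra.ofModule
    (fun r a b => by ext <;> simp [smul_add])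
    (fun r a b => by ext <;> simp [smul_add, mul_add])

/-- Both components, linearly. -/
def toPair : Cross R ≃ₗ[k] T × T where
  toFun a := (a.x, a.y)
  invFun p := ⟨p.1, p.2⟩
  map_add' _ _ := rfl
  map_smul' _ _ := rfl
  left_inv _ := rfl
  right_inv _ := rfl

instance [FiniteDimensional k T] : FiniteDimensional k (Cross R) :=
  Module.Finite.equiv (toPair (R := R)).symm

theorem sum_x {ι : Type*} (s : Finset ι) (f : ι → Cross R) :
    (∑ i ∈ s, f i).x = ∑ i ∈ s, (f i).x :=
  map_sum (AddMonoidHom.mk' (fun a : Cross R => a.x) fun _ _ => rfl) f s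

theorem sum_y {ι : Type*} (s : Finset ι) (f : ι → Cross R) :
    (∑ i ∈ s, f i).y = ∑ i ∈ s, (f i).y :=
  map_sum (AddMonoidHom.mk' (fun a : Cross R => a.y) fun _ _ => rfl) f s

end Cross

end P195.Window
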