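import Vale.Agent.P195.Window.Alg

/-! P195, window machine: the generators of the window algebra and their products. -/

namespace P195.Window

variable {k T : Type} [Field k] [Ring T] [Algebra k T] {R : DGA k T}

variable (R) in
/-- The projection to position `n`. -/
def evM (n : ℤ) : Adm R :=
  ⟨Matrix.diagonal fun j => if ((j : ℕ) : ℤ) = n then 1 else 0, fun j i => by
    by_cases h : j = i
    · subst h
      rw [Matrix.diagonal_apply_eq]
      split_ifs
      · exact ⟨by simpa using R.one_mem', by simp⟩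
      · simp [Fits]
    · rw [Matrix.diagonal_apply_ne _ h]; simp [Fits]⟩

variable (R) in
/-- The differential as an element of the window algebra. -/
def delM : Adm R :=
  ⟨Matrix.of fun j i => if (j : ℕ) + 1 = (i : ℕ) then ⟨0, 1⟩ else 0, fun j i => by
    simp only [Matrix.of_apply]
    split_ifs with h
    · refine ⟨by simp, ?_⟩
      show (1 : T) ∈ R.G _
      rw [show ((j : ℕ) : ℤ) - ((i : ℕ) : ℤ) + 1 = 0 by omega]
      exact R.one_mem'
    · simp [Fits]⟩

variable (R) in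
/-- Left multiplication by an element of `T`, as a matrix. -/
def actM : T →ₗ[k] Adm R where
  toFun t := ⟨Matrix.of fun j i => ⟨R.pr ((j : ℕ) - (i : ℕ)) t, 0⟩,
    fun j i => ⟨R.pr_mem _ _, by simp⟩⟩
  map_add' s t := by ext j i : 2; ext <;> simp
  map_smul' r t := by ext j i : 2; ext <;> simp

theorem evM_apply (n : ℤ) (j i : Pos R) :
    (evM R n).1 j i = if j = i ∧ ((j : ℕ) : ℤ) = n then 1 else 0 := by
  show Matrix.diagonal _ j i = _
  by_cases h : j = i
  · subst h; simp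
  · simp [Matrix.diagonal_apply_ne _ h, h]

theorem actM_apply (t : T) (j i : Pos R) :
    (actM R t).1 j i = ⟨R.pr ((j : ℕ) - (i : ℕ)) t, 0⟩ := rfl

theorem delM_apply (j i : Pos R) :
    (delM R).1 j i = if (j : ℕ) + 1 = (i : ℕ) then ⟨0, 1⟩ else 0 := rfl

theorem coe_mul_apply (X Y : Adm R) (j i : Pos R) :
    (X * Y).1 j i = ∑ m, X.1 j m * Y.1 m i := rfl

theorem actM_apply_of_mem {p : ℤ} {s : T} (hs : s ∈ R.G p) (j i : Pos R) :
    (actM R s).1 j i = if ((j : ℕ) : ℤ) = (i : ℕ) + p then ⟨s, 0⟩ else 0 := by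
  rw [actM_apply, R.pr_of_mem hs]
  by_cases h : ((j : ℕ) : ℤ) = (i : ℕ) + p
  · rw [if_pos h, if_pos (by omega)]
  · rw [if_neg h, if_neg (by omega)]; rfl

theorem evM_coe (n : ℤ) :
    (evM R n).1 = Matrix.diagonal (fun j : Pos R => if ((j : ℕ) : ℤ) = n then (1 : Cross R) else 0) :=
  rfl

@[simp] theorem Cross.mk_zero : (⟨0, 0⟩ : Cross R) = 0 := rfl

theorem mul_evM_apply (X : Adm R) (n : ℤ) (j i : Pos R) :
    (X * evM R n).1 j i = if ((i : ℕ) : ℤ) = n then X.1 j i else 0 := by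
  rw [Subalgebra.coe_mul, evM_coe, Matrix.mul_diagonal]; split_ifs <;> simp

theorem evM_mul_apply (X : Adm R) (n : ℤ) (j i : Pos R) :
    (evM R n * X).1 j i = if ((j : ℕ) : ℤ) = n then X.1 j i else 0 := by
  rw [Subalgebra.coe_mul, evM_coe, Matrix.diagonal_mul]; split_ifs <;> simp

theorem mul_actM_apply (X : Adm R) {p : ℤ} {s : T} (hs : s ∈ R.G p) (j i m : Pos R)
    (hm : ((m : ℕ) : ℤ) = (i : ℕ) + p) : (X * actM R s).1 j i = X.1 j m * ⟨s, 0⟩ := by
  rw [coe_mul_apply, Finset.sum_eq_single m]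
  · rw [actM_apply_of_mem hs, if_pos hm]
  · intro b _ hb
    rw [actM_apply_of_mem hs, if_neg (fun e => hb (Fin.ext (by omega))), mul_zero]
  · simp

theorem mul_actM_apply_out (X : Adm R) {p : ℤ} {s : T} (hs : s ∈ R.G p) (j i : Pos R)
    (h : (i : ℕ) + p < 0 ∨ (R.L : ℤ) < (i : ℕ) + p) : (X * actM R s).1 j i = 0 := by
  rw [coe_mul_apply]
  refine Finset.sum_eq_zero fun b _ => ?_
  have := b.isLt
  rw [actM_apply_of_mem hs, if_neg (by omega), mul_zero]

theorem actM_mul_apply (X : Adm R) {p : ℤ} {s : T} (hs : s ∈ R.G p) (j i m : Pos R)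
    (hm : ((j : ℕ) : ℤ) = (m : ℕ) + p) : (actM R s * X).1 j i = ⟨s, 0⟩ * X.1 m i := by
  rw [coe_mul_apply, Finset.sum_eq_single m]
  · rw [actM_apply_of_mem hs, if_pos hm]
  · intro b _ hb
    rw [actM_apply_of_mem hs, if_neg (fun e => hb (Fin.ext (by omega))), zero_mul]
  · simp

theorem actM_mul_apply_out (X : Adm R) {p : ℤ} {s : T} (hs : s ∈ R.G p) (j i : Pos R)
    (h : ((j : ℕ) : ℤ) < p) : (actM R s * X).1 j i = 0 := by
  rw [coe_mul_apply]
  refine Finset.sum_eq_zero fun b _ => ?_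
  rw [actM_apply_of_mem hs, if_neg (by omega), zero_mul]

theorem mul_delM_apply (X : Adm R) (j i m : Pos R) (hm : (m : ℕ) + 1 = (i : ℕ)) :
    (X * delM R).1 j i = ⟨0, (X.1 j m).x⟩ := by
  rw [coe_mul_apply, Finset.sum_eq_single m]
  · rw [delM_apply, if_pos hm]; ext <;> simp
  · intro b _ hb
    rw [delM_apply, if_neg (fun e => hb (Fin.ext (by omega))), mul_zero]
  · simp

theorem mul_delM_apply_zero (X : Adm R) (j i : Pos R) (hi : (i : ℕ) = 0) :
    (X * delM R).1 j i = 0 := by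
  rw [coe_mul_apply]
  exact Finset.sum_eq_zero fun b _ => by rw [delM_apply, if_neg (by omega), mul_zero]

theorem delM_mul_apply (X : Adm R) (j i m : Pos R) (hm : (j : ℕ) + 1 = (m : ℕ)) :
    (delM R * X).1 j i = ⟨R.d (X.1 m i).x, R.J (X.1 m i).x + R.d (X.1 m i).y⟩ := by
  rw [coe_mul_apply, Finset.sum_eq_single m]
  · rw [delM_apply, if_pos hm]; ext <;> simp
  · intro b _ hb
    rw [delM_apply, if_neg (fun e => hb (Fin.ext (by omega))), zero_mul]
  · simp

theorem delM_mul_apply_last (X : Adm R) (j i : Pos R) (hj : (j : ℕ) = R.L) :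
    (delM R * X).1 j i = 0 := by
  rw [coe_mul_apply]
  refine Finset.sum_eq_zero fun b _ => ?_
  have := b.isLt
  rw [delM_apply, if_neg (by omega), zero_mul]

variable (R) in
/-- Projection to position `n`. -/
noncomputable def ev (n : ℤ) : Alg R := mk (evM R n)

variable (R) in
/-- The differential. -/
noncomputable def del : Alg R := mk (delM R)

theorem actM_one : actM R 1 = 1 := by
  refine Subtype.ext (Matrix.ext fun j i => ?_)
  rw [actM_apply_of_mem R.one_mem']
  by_cases h : j = i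
  · subst h; simp [Cross.ext_iff]
  · show _ = (1 : Mat R) j i
    rw [Matrix.one_apply_ne h, if_neg (fun e => h (Fin.ext (by omega)))]

theorem actM_mul (s t : T) : actM R (s * t) = actM R s * actM R t := by
  refine R.induction_on s (by simp) (fun a b ha hb => by simp [add_mul, ha, hb]) fun m s hs => ?_
  refine R.induction_on t (by simp) (fun a b ha hb => by simp [mul_add, ha, hb]) fun n t ht => ?_
  refine Subtype.ext (Matrix.ext fun j i => ?_)
  have hj := j.isLt
  rw [actM_apply_of_mem (R.mul_G hs ht)]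
  by_cases h : (i : ℕ) + n ≤ R.L
  · rw [mul_actM_apply _ ht j i ⟨i + n, by omega⟩ (by simp), actM_apply_of_mem hs]
    by_cases h2 : ((j : ℕ) : ℤ) = (i : ℕ) + ((m : ℤ) + n)
    · rw [if_pos h2, if_pos (by simp; omega)]; ext <;> simp
    · rw [if_neg h2, if_neg (by simp; omega), zero_mul]
  · rw [mul_actM_apply_out _ ht j i (.inr (by omega)), if_neg (by omega)]

variable (R) in
/-- Left multiplication by `T`. -/
noncomputable def act : T →ₐ[k] Alg R :=
  AlgHom.ofLinearMap ((mk (R := R)).toLinearMap ∘ₗ actM R)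
    (by simp only [LinearMap.comp_apply, AlgHom.toLinearMap_apply, actM_one, map_one])
    (fun s t => by simp only [LinearMap.comp_apply, AlgHom.toLinearMap_apply, actM_mul, map_mul])

theorem act_eq (t : T) : act R t = mk (actM R t) := rfl

theorem del_mul_del : del R * del R = 0 := by
  rw [del, ← map_mul, mk_eq_zero]
  intro j i
  have hi := i.isLt; have hj := j.isLt
  by_cases h : (j : ℕ) < R.L
  · rw [delM_mul_apply _ j i ⟨j + 1, by omega⟩ rfl, delM_apply]
    split_ifs <;> simpa using negl_zero j i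
  · rw [delM_mul_apply_last _ j i (by omega)]; exact negl_zero j i

theorem del_mul_act (t : T) : del R * act R t = act R (R.d t) + act R (R.J t) * del R := by
  rw [del, act_eq, act_eq, act_eq, ← map_mul, ← map_mul, ← map_add, ← sub_eq_zero, ← map_sub,
    mk_eq_zero]
  intro j i
  have hj := j.isLt; have hi := i.isLt
  show Negl j i ((delM R * actM R t).1 j i - ((actM R (R.d t)).1 j i + (actM R (R.J t) * delM R).1 j i))
  have hy : (actM R (R.J t) * delM R).1 j i =
      if (i : ℕ) = 0 then 0 else ⟨0, R.J (R.pr ((j : ℕ) - (i : ℕ) + 1) t)⟩ := by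
    split_ifs with h
    · exact mul_delM_apply_zero _ j i h
    · rw [mul_delM_apply _ j i ⟨i - 1, by omega⟩ (by simp; omega), actM_apply]
      simp only [R.J_pr]
      rw [show ((j : ℕ) : ℤ) - (((i : ℕ) - 1 : ℕ) : ℤ) = (j : ℕ) - (i : ℕ) + 1 by omega]
  rw [hy, actM_apply, R.pr_d]
  unfold Negl
  by_cases h : (j : ℕ) = R.L
  · rw [if_pos h, delM_mul_apply_last _ j i h]
    split_ifs with h0
    · simp only [zero_sub, add_zero, Cross.neg_x, Cross.neg_y, map_zero, neg_zero]
      rw [R.pr_eq_zero (.inr (by have := R.width_lt_L; omega)), map_zero, neg_zero]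
    · simp [R.J_J]
  · rw [if_neg h, delM_mul_apply _ j i ⟨j + 1, by omega⟩ rfl, actM_apply]
    have he : (((j : ℕ) + 1 : ℕ) : ℤ) - ((i : ℕ) : ℤ) = (j : ℕ) - (i : ℕ) + 1 := by push_cast; ring
    simp only [he, map_zero, add_zero]
    split_ifs with h0 <;> simp [h0]

theorem ev_mul_ev (m n : ℤ) : ev R m * ev R n = if m = n then ev R n else 0 := by
  simp only [ev, ← map_mul]
  split_ifs with h
  · subst h; congr 1; refine Subtype.ext (Matrix.ext fun j i => ?_)
    rw [mul_evM_apply, evM_apply]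
    grind
  · rw [mk_eq_zero]
    intro j i
    rw [mul_evM_apply, evM_apply]
    have : (if ((i : ℕ) : ℤ) = n then (if j = i ∧ ((j : ℕ) : ℤ) = m then (1 : Cross R) else 0) else 0) = 0 := by
      grind
    rw [this]; exact negl_zero j i

theorem ev_out {n : ℤ} (h : n < 0 ∨ (R.L : ℤ) < n) : ev R n = 0 := by
  rw [ev, mk_eq_zero]
  intro j i
  have := j.isLt
  rw [evM_apply, if_neg (by omega)]
  exact negl_zero j i

theorem sum_ev : ∑ n ∈ Finset.range (R.L + 1), ev R (n : ℤ) = 1 := by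
  simp only [ev, ← map_sum, ← map_one (mk (R := R))]
  congr 1
  refine Subtype.ext (Matrix.ext fun j i => ?_)
  rw [AddSubmonoidClass.coe_finsetSum, Matrix.sum_apply]
  simp only [evM_apply]
  show _ = (1 : Mat R) j i
  rw [Finset.sum_eq_single (j : ℕ)]
  · by_cases h : j = i
    · subst h; simp
    · simp [Matrix.one_apply_ne h, h]
  · intro b _ hb; rw [if_neg]; omega
  · intro h; exact absurd (Finset.mem_range.2 j.isLt) h

theorem ev_mul_act {p : ℤ} {s : T} (hs : s ∈ R.G p) (n : ℤ) :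
    ev R (n + p) * act R s = act R s * ev R n := by
  rw [ev, ev, act_eq, ← map_mul, ← map_mul]
  congr 1
  refine Subtype.ext (Matrix.ext fun j i => ?_)
  rw [mul_evM_apply, evM_mul_apply, actM_apply_of_mem hs]
  split_ifs <;> first | rfl | omega

theorem ev_mul_del (n : ℤ) : ev R (n - 1) * del R = del R * ev R n := by
  rw [ev, ev, del, ← map_mul, ← map_mul]
  congr 1
  refine Subtype.ext (Matrix.ext fun j i => ?_)
  rw [mul_evM_apply, evM_mul_apply, delM_apply]
  split_ifs <;> first | rfl | omega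

/-! Normal coordinates of products. -/

theorem cx_mem (j i : Pos R) (a : Alg R) : cx j i a ∈ R.G ((j : ℕ) - (i : ℕ)) := by
  obtain ⟨X, rfl⟩ := mk_surjective a
  rw [cx_mk]
  by_cases h : (j : ℕ) = R.L
  · rw [rawX_last h]
    exact sub_mem (X.2 j i).1 (R.d_G' (R.J_G (X.2 j i).2) (by ring))
  · rw [rawX_lt h]; exact (X.2 j i).1

theorem cy_mem (j i : Pos R) (a : Alg R) : cy j i a ∈ R.G ((j : ℕ) - (i : ℕ) + 1) := by
  obtain ⟨X, rfl⟩ := mk_surjective a
  rw [cy_mk]
  by_cases h : (j : ℕ) = R.L ∨ (i : ℕ) = 0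
  · rw [rawY_zero h]; exact zero_mem _
  · push Not at h
    rw [rawY_of h.1 h.2]; exact (X.2 j i).2

theorem cy_eq_zero (j i : Pos R) (h : (j : ℕ) = R.L ∨ (i : ℕ) = 0) (a : Alg R) :
    cy j i a = 0 := by
  obtain ⟨X, rfl⟩ := mk_surjective a
  rw [cy_mk, rawY_zero h]

theorem cx_congr {j i : Pos R} {X Y : Adm R} (h : X.1 j i = Y.1 j i) :
    rawX j i X = rawX j i Y ∧ rawY j i X = rawY j i Y := by
  simp [rawX, rawY, h]

theorem raw_zero {j i : Pos R} {X : Adm R} (h : X.1 j i = 0) :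
    rawX j i X = 0 ∧ rawY j i X = 0 := by
  simp [rawX, rawY, h]

theorem cx_mul_ev (a : Alg R) (n : ℤ) (j i : Pos R) :
    cx j i (a * ev R n) = (if ((i : ℕ) : ℤ) = n then cx j i a else 0) ∧
    cy j i (a * ev R n) = (if ((i : ℕ) : ℤ) = n then cy j i a else 0) := by
  obtain ⟨X, rfl⟩ := mk_surjective a
  rw [ev, ← map_mul, cx_mk, cy_mk]
  split_ifs with h
  · simpa using cx_congr (by rw [mul_evM_apply, if_pos h])
  · exact raw_zero (by rw [mul_evM_apply, if_neg h])

theorem cx_ev_mul (a : Alg R) (n : ℤ) (j i : Pos R) :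
    cx j i (ev R n * a) = (if ((j : ℕ) : ℤ) = n then cx j i a else 0) ∧
    cy j i (ev R n * a) = (if ((j : ℕ) : ℤ) = n then cy j i a else 0) := by
  obtain ⟨X, rfl⟩ := mk_surjective a
  rw [ev, ← map_mul, cx_mk, cy_mk]
  split_ifs with h
  · simpa using cx_congr (by rw [evM_mul_apply, if_pos h])
  · exact raw_zero (by rw [evM_mul_apply, if_neg h])

theorem cx_mul_act (a : Alg R) {p : ℤ} {s : T} (hs : s ∈ R.G p) (j i m : Pos R)
    (hm : ((m : ℕ) : ℤ) = (i : ℕ) + p) :
    cx j i (a * act R s) = cx j m a * s + cy j m a * R.d s ∧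
    cy j i (a * act R s) = if (i : ℕ) = 0 then 0 else cy j m a * R.J s := by
  obtain ⟨X, rfl⟩ := mk_surjective a
  rw [act_eq, ← map_mul]
  simp only [cx_mk, cy_mk]
  by_cases hj : (j : ℕ) = R.L
  · simp only [rawX_last hj, rawY_zero (Or.inl hj), mul_actM_apply X hs j i m hm, Cross.mul_x,
      Cross.mul_y, mul_zero, zero_mul, map_zero, add_zero, ite_self]
    refine ⟨?_, trivial⟩
    simp [R.J_J, R.d_mul, sub_mul]
  · simp only [rawX_lt hj, mul_actM_apply X hs j i m hm]
    by_cases hi : (i : ℕ) = 0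
    · rw [rawY_zero (.inr hi), if_pos hi]
      refine ⟨?_, rfl⟩
      by_cases hm0 : (m : ℕ) = 0
      · rw [rawY_zero (.inr hm0)]
        have : p = 0 := by omega
        subst this
        simp [R.d_zero_deg hs]
      · rw [rawY_of hj hm0]; simp
    · rw [rawY_of hj hi, if_neg hi, mul_actM_apply X hs j i m hm]
      have hp : ¬ p < 0 ∨ s = 0 := by
        by_cases hp : p < 0
        · exact .inr (R.G_eq_bot (.inl hp) hs)
        · exact .inl hp
      rcases hp with hp | rfl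
      · rw [rawY_of hj (by omega)]; simp
      · simp

theorem cx_mul_act_out (a : Alg R) {p : ℤ} {s : T} (hs : s ∈ R.G p) (j i : Pos R)
    (h : (i : ℕ) + p < 0 ∨ (R.L : ℤ) < (i : ℕ) + p) :
    cx j i (a * act R s) = 0 ∧ cy j i (a * act R s) = 0 := by
  obtain ⟨X, rfl⟩ := mk_surjective a
  rw [act_eq, ← map_mul, cx_mk, cy_mk]
  exact raw_zero (mul_actM_apply_out X hs j i h)

theorem cx_mul_del (a : Alg R) (j i m : Pos R) (hm : (m : ℕ) + 1 = (i : ℕ)) :
    cx j i (a * del R) = (if (j : ℕ) = R.L then - R.d (R.J (cx j m a)) else 0) ∧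
    cy j i (a * del R) = if (j : ℕ) = R.L then 0 else cx j m a := by
  obtain ⟨X, rfl⟩ := mk_surjective a
  rw [del, ← map_mul]
  simp only [cx_mk, cy_mk]
  split_ifs with hj
  · simp only [rawX_last hj, rawY_zero (Or.inl hj), mul_delM_apply X j i m hm]
    simp [R.J_d, R.d_d, R.J_J]
  · simp only [rawX_lt hj, rawY_of hj (show (i : ℕ) ≠ 0 by omega), mul_delM_apply X j i m hm,
      and_self]

theorem cx_mul_del_zero (a : Alg R) (j i : Pos R) (hi : (i : ℕ) = 0) :
    cx j i (a * del R) = 0 ∧ cy j i (a * del R) = 0 := by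
  obtain ⟨X, rfl⟩ := mk_surjective a
  rw [del, ← map_mul, cx_mk, cy_mk]
  exact raw_zero (mul_delM_apply_zero X j i hi)

theorem cx_del_mul (a : Alg R) (j i m : Pos R) (hm : (j : ℕ) + 1 = (m : ℕ)) :
    cx j i (del R * a) = R.d (cx m i a) ∧
    cy j i (del R * a) = if (i : ℕ) = 0 then 0 else R.J (cx m i a) + R.d (cy m i a) := by
  obtain ⟨X, rfl⟩ := mk_surjective a
  rw [del, ← map_mul]
  have hmL := m.isLt
  have hj : (j : ℕ) ≠ R.L := by omega
  simp only [cx_mk, cy_mk, rawX_lt hj, delM_mul_apply X j i m hm]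
  by_cases hm' : (m : ℕ) = R.L
  · simp only [rawX_last hm', rawY_zero (Or.inl hm')]
    by_cases hi : (i : ℕ) = 0
    · simp [rawY_zero (Or.inr hi), hi, R.d_d]
    · simp only [rawY_of hj hi, delM_mul_apply X j i m hm, hi, if_false]
      simp [R.d_d, R.J_d, R.J_J]
  · simp only [rawX_lt hm']
    by_cases hi : (i : ℕ) = 0
    · simp [rawY_zero (Or.inr hi), hi]
    · simp only [rawY_of hj hi, rawY_of hm' hi, delM_mul_apply X j i m hm, hi, if_false, and_self]

theorem cx_act_mul (a : Alg R) {p : ℤ} {s : T} (hs : s ∈ R.G p) (j i m : Pos R)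
    (hj : (j : ℕ) ≠ R.L) (hm' : (m : ℕ) ≠ R.L) (hm : ((j : ℕ) : ℤ) = (m : ℕ) + p) :
    cx j i (act R s * a) = s * cx m i a ∧ cy j i (act R s * a) = s * cy m i a := by
  obtain ⟨X, rfl⟩ := mk_surjective a
  rw [act_eq, ← map_mul]
  simp only [cx_mk, cy_mk, rawX_lt hj, rawX_lt hm', actM_mul_apply X hs j i m hm]
  by_cases hi : (i : ℕ) = 0
  · simp [rawY_zero (Or.inr hi)]
  · simp [rawY_of hj hi, rawY_of hm' hi, actM_mul_apply X hs j i m hm]

theorem cx_act_mul_out (a : Alg R) {p : ℤ} {s : T} (hs : s ∈ R.G p) (j i : Pos R)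
    (h : ((j : ℕ) : ℤ) < p) :
    cx j i (act R s * a) = 0 ∧ cy j i (act R s * a) = 0 := by
  obtain ⟨X, rfl⟩ := mk_surjective a
  rw [act_eq, ← map_mul, cx_mk, cy_mk]
  exact raw_zero (actM_mul_apply_out X hs j i h)

variable (R) in
/-- The element with one entry. -/
noncomputable def el (j i : Pos R) (x y : T) : Alg R :=
  mk ⟨Matrix.single j i ⟨R.pr ((j : ℕ) - (i : ℕ)) x, R.pr ((j : ℕ) - (i : ℕ) + 1) y⟩, fun a b => by
    by_cases h : j = a ∧ i = b
    · obtain ⟨rfl, rfl⟩ := h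
      rw [Matrix.single_apply_same]; exact ⟨R.pr_mem _ _, R.pr_mem _ _⟩
    · rw [Matrix.single_apply_of_ne _ _ _ _ _ h]; simp [Fits]⟩

theorem cx_el (j i : Pos R) {x y : T} (hx : x ∈ R.G ((j : ℕ) - (i : ℕ)))
    (hy : y ∈ R.G ((j : ℕ) - (i : ℕ) + 1)) :
    cx j i (el R j i x y) = (if (j : ℕ) = R.L then x - R.d (R.J y) else x) ∧
    cy j i (el R j i x y) = (if (j : ℕ) = R.L ∨ (i : ℕ) = 0 then 0 else y) := by
  simp [el, rawX, rawY, R.mem_G.1 hx, R.mem_G.1 hy]

theorem cx_el_ne (j i a b : Pos R) (x y : T) (h : ¬(j = a ∧ i = b)) :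
    cx a b (el R j i x y) = 0 ∧ cy a b (el R j i x y) = 0 :=
  raw_zero (Matrix.single_apply_of_ne _ _ _ _ _ h)

end P195.Window
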