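import Vale.Agent.P195.Window.Res

/-! P195, window machine: the resolution is exact when the cells are acyclic. -/

namespace P195.Window

variable {k T : Type} [Field k] [Ring T] [Algebra k T] {R : DGA k T}

namespace Cells

variable (Q : Cells R) {E : ℕ}

/-- The position of a cell in `F E`. -/
def pos (c : Q.Idx E) : Pos R := ⟨Q.deg c.1 - E, by have := c.2; omega⟩

theorem pos_cast (c : Q.Idx E) : (((Q.pos c : Pos R) : ℕ) : ℤ) = (Q.deg c.1 : ℤ) - E := by
  have := c.2
  simp [pos]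
  omega

theorem cx_mul_idem (a : Alg R) (c : Q.Idx E) (j i : Pos R) :
    cx j i (a * Q.idem E c.1) = (if i = Q.pos c then cx j i a * Q.e c.1 else 0) ∧
    cy j i (a * Q.idem E c.1) = (if i = Q.pos c then cy j i a * Q.e c.1 else 0) := by
  have hi : (((i : ℕ) : ℤ) = (Q.deg c.1 : ℤ) - E) ↔ i = Q.pos c := by
    rw [← Q.pos_cast c, Nat.cast_inj, ← Fin.ext_iff]
  rw [idem, Q.ev_comm, ← mul_assoc]
  obtain ⟨h1, h2⟩ := cx_mul_ev (a * act R (Q.e c.1)) ((Q.deg c.1 : ℤ) - E) j i
  obtain ⟨h3, h4⟩ := cx_mul_act a (Q.e_mem c.1) j i i (by simp)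
  simp only [h1, h2, h3, h4, hi, Q.d_e, mul_zero, add_zero, R.J_zero (Q.e_mem c.1)]
  refine ⟨trivial, ?_⟩
  by_cases h0 : (i : ℕ) = 0
  · simp [h0, cy_eq_zero j i (.inr h0)]
  · simp [h0]

/-- A normal coordinate of a tuple. -/
noncomputable def fx (f : Q.F E) (j : Pos R) (c : Q.Idx E) : T := cx j (Q.pos c) (f.1 c)

/-- A normal coordinate of a tuple. -/
noncomputable def fy (f : Q.F E) (j : Pos R) (c : Q.Idx E) : T := cy j (Q.pos c) (f.1 c)

theorem fx_e (f : Q.F E) (j : Pos R) (c : Q.Idx E) : Q.fx f j c * Q.e c.1 = Q.fx f j c := by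
  have := (Q.cx_mul_idem (f.1 c) c j (Q.pos c)).1
  rw [f.2 c, if_pos rfl] at this
  exact this.symm

theorem fy_e (f : Q.F E) (j : Pos R) (c : Q.Idx E) : Q.fy f j c * Q.e c.1 = Q.fy f j c := by
  have := (Q.cx_mul_idem (f.1 c) c j (Q.pos c)).2
  rw [f.2 c, if_pos rfl] at this
  exact this.symm

theorem fx_mem (f : Q.F E) (j : Pos R) (c : Q.Idx E) :
    Q.fx f j c ∈ R.G ((j : ℕ) - ((Q.deg c.1 : ℤ) - E)) := by
  rw [← Q.pos_cast c]; exact cx_mem _ _ _

theorem fy_mem (f : Q.F E) (j : Pos R) (c : Q.Idx E) :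
    Q.fy f j c ∈ R.G ((j : ℕ) - ((Q.deg c.1 : ℤ) - E) + 1) := by
  rw [← Q.pos_cast c]; exact cy_mem _ _ _

theorem fy_eq_zero (f : Q.F E) (j : Pos R) (c : Q.Idx E) (h : (j : ℕ) = R.L ∨ Q.deg c.1 = E) :
    Q.fy f j c = 0 :=
  cy_eq_zero _ _ (by simpa [pos] using h.imp id fun h => (Nat.sub_eq_zero_of_le h.le)) _

theorem F_ext {f g : Q.F E} (hx : ∀ j c, Q.fx f j c = Q.fx g j c)
    (hy : ∀ j c, Q.fy f j c = Q.fy g j c) : f = g := by
  refine Subtype.ext (funext fun c => alg_ext (fun j i => ?_) fun j i => ?_)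
  · by_cases h : i = Q.pos c
    · subst h; exact hx j c
    · rw [← f.2 c, ← g.2 c, (Q.cx_mul_idem _ c j i).1, (Q.cx_mul_idem _ c j i).1, if_neg h, if_neg h]
  · by_cases h : i = Q.pos c
    · subst h; exact hy j c
    · rw [← f.2 c, ← g.2 c, (Q.cx_mul_idem _ c j i).2, (Q.cx_mul_idem _ c j i).2, if_neg h, if_neg h]

theorem cx_f_D (f : Q.F (E + 1)) (j : Pos R) (c' : Q.Idx (E + 1)) (c : Q.Idx E) :
    cx j (Q.pos c) (f.1 c' * act R (Q.D c'.1 c.1) * Q.idem E c.1) =
      Q.fx f j c' * Q.D c'.1 c.1 + Q.fy f j c' * R.d (Q.D c'.1 c.1) ∧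
    cy j (Q.pos c) (f.1 c' * act R (Q.D c'.1 c.1) * Q.idem E c.1) =
      if Q.deg c.1 = E then 0 else Q.fy f j c' * R.J (Q.D c'.1 c.1) := by
  obtain ⟨h1, h2⟩ := Q.cx_mul_idem (f.1 c' * act R (Q.D c'.1 c.1)) c j (Q.pos c)
  obtain ⟨h3, h4⟩ := cx_mul_act (f.1 c') (Q.D_mem c'.1 c.1) j (Q.pos c) (Q.pos c')
    (by rw [Q.pos_cast, Q.pos_cast]; push_cast; ring)
  have hiff : ((Q.pos c : Pos R) : ℕ) = 0 ↔ Q.deg c.1 = E := by
    have := c.2; simp [pos]; omega
  rw [if_pos rfl] at h1 h2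
  rw [h1, h2, h3, h4]
  constructor
  · show (Q.fx f j c' * _ + Q.fy f j c' * _) * _ = _
    rw [add_mul, mul_assoc, mul_assoc, Q.D_e]
    congr 2
    conv_rhs => rw [← Q.D_e c'.1 c.1, R.d_mul, Q.d_e, mul_zero, add_zero]
  · by_cases h0 : Q.deg c.1 = E
    · rw [if_pos (hiff.2 h0), if_pos h0, zero_mul]
    · rw [if_neg (fun h => h0 (hiff.1 h)), if_neg h0]
      show Q.fy f j c' * _ * _ = _
      conv_rhs => rw [← Q.D_e c'.1 c.1, map_mul, R.J_zero (Q.e_mem c.1)]
      rw [mul_assoc]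

open scoped Classical in
theorem cx_f_del (f : Q.F (E + 1)) (j : Pos R) (c' : Q.Idx (E + 1)) (c : Q.Idx E)
    (h : c.1 = c'.1) :
    cx j (Q.pos c) (f.1 c' * del R * Q.idem E c.1) =
      (if (j : ℕ) = R.L then - R.d (R.J (Q.fx f j c')) else 0) ∧
    cy j (Q.pos c) (f.1 c' * del R * Q.idem E c.1) =
      if (j : ℕ) = R.L then 0 else Q.fx f j c' := by
  obtain ⟨h1, h2⟩ := Q.cx_mul_idem (f.1 c' * del R) c j (Q.pos c)
  obtain ⟨h3, h4⟩ := cx_mul_del (f.1 c') j (Q.pos c) (Q.pos c') (by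
    have := c'.2; simp [pos, h]; omega)
  rw [if_pos rfl] at h1 h2
  rw [h1, h2, h3, h4]
  have he : Q.fx f j c' * Q.e c.1 = Q.fx f j c' := by rw [h]; exact Q.fx_e f j c'
  constructor <;> split_ifs
  · show - R.d (R.J (Q.fx f j c')) * _ = _
    conv_rhs => rw [← he, map_mul, R.J_zero (Q.e_mem c.1), R.d_mul, Q.d_e, mul_zero, add_zero]
    rw [neg_mul]
  · exact zero_mul _
  · exact zero_mul _
  · exact he

open scoped Classical in
theorem fx_bd (f : Q.F (E + 1)) (j : Pos R) (c : Q.Idx E) :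
    Q.fx (Q.bd E f) j c = ∑ c' : Q.Idx (E + 1), sgn (Q.deg c'.1) •
      ((if c.1 = c'.1 then (if (j : ℕ) = R.L then - R.d (R.J (Q.fx f j c')) else 0) else 0)
        - (Q.fx f j c' * Q.D c'.1 c.1 + Q.fy f j c' * R.d (Q.D c'.1 c.1))) := by
  rw [fx, Q.bd_apply, map_sum]
  refine Finset.sum_congr rfl fun c' _ => ?_
  rw [map_zsmul, map_sub, (Q.cx_f_D f j c' c).1]
  congr 2
  by_cases h : c.1 = c'.1
  · rw [if_pos h, if_pos h, (Q.cx_f_del f j c' c h).1]
  · rw [if_neg h, if_neg h, map_zero]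

open scoped Classical in
theorem fy_bd (f : Q.F (E + 1)) (j : Pos R) (c : Q.Idx E) :
    Q.fy (Q.bd E f) j c = ∑ c' : Q.Idx (E + 1), sgn (Q.deg c'.1) •
      ((if c.1 = c'.1 then (if (j : ℕ) = R.L then 0 else Q.fx f j c') else 0)
        - (if Q.deg c.1 = E then 0 else Q.fy f j c' * R.J (Q.D c'.1 c.1))) := by
  rw [fy, Q.bd_apply, map_sum]
  refine Finset.sum_congr rfl fun c' _ => ?_
  rw [map_zsmul, map_sub, (Q.cx_f_D f j c' c).2]
  congr 2
  by_cases h : c.1 = c'.1
  · rw [if_pos h, if_pos h, (Q.cx_f_del f j c' c h).2]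
  · rw [if_neg h, if_neg h, map_zero]

open scoped Classical in
/-- A tuple with prescribed first coordinates. -/
noncomputable def mkF (w : Pos R → Q.Idx E → T) : Q.F E :=
  Q.cut E fun c => ∑ j, el R j (Q.pos c) (w j c) 0

theorem fx_mkF (w : Pos R → Q.Idx E → T)
    (hw : ∀ (j : Pos R) (c : Q.Idx E), w j c ∈ R.G ((j : ℕ) - ((Q.deg c.1 : ℤ) - E)))
    (hwe : ∀ (j : Pos R) (c : Q.Idx E), w j c * Q.e c.1 = w j c) (j : Pos R) (c : Q.Idx E) :
    Q.fx (Q.mkF w) j c = w j c ∧ Q.fy (Q.mkF w) j c = 0 := by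
  obtain ⟨h1, h2⟩ := Q.cx_mul_idem (∑ j', el R j' (Q.pos c) (w j' c) 0) c j (Q.pos c)
  rw [if_pos rfl] at h1 h2
  have h0 := cx_el (R := R) j (Q.pos c) (x := w j c) (y := 0) (by rw [Q.pos_cast]; exact hw j c)
    (zero_mem _)
  refine ⟨h1.trans ?_, h2.trans ?_⟩
  · rw [map_sum, Finset.sum_eq_single j, h0.1]
    · simp [hwe j c]
    · intro b _ hb; exact (cx_el_ne _ _ _ _ _ _ (fun e => hb e.1)).1
    · exact fun h => absurd (Finset.mem_univ j) h
  · rw [map_sum, Finset.sum_eq_single j, h0.2]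
    · simp
    · intro b _ hb; exact (cx_el_ne _ _ _ _ _ _ (fun e => hb e.1)).2
    · exact fun h => absurd (Finset.mem_univ j) h

open scoped Classical in
/-- A chain from a function on the cells seen by `F E`. -/
noncomputable def toChain (w : Q.Idx E → T) : Q.Cell →₀ T :=
  ∑ c, Finsupp.single c.1 (w c)

open scoped Classical in
theorem toChain_apply (w : Q.Idx E → T) (c : Q.Cell) :
    Q.toChain w c = ∑ c' : Q.Idx E, if c'.1 = c then w c' else 0 := by
  simp [toChain, Finsupp.single_apply]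

theorem toChain_apply_idx (w : Q.Idx E → T) (c : Q.Idx E) : Q.toChain w c.1 = w c := by
  classical
  rw [Q.toChain_apply, Finset.sum_eq_single c, if_pos rfl]
  · intro b _ hb; exact if_neg fun e => hb (Subtype.ext e)
  · exact fun h => absurd (Finset.mem_univ c) h

theorem toChain_apply_out (w : Q.Idx E → T) (c : Q.Cell)
    (h : ¬(E ≤ Q.deg c ∧ Q.deg c ≤ E + R.L)) : Q.toChain w c = 0 := by
  classical
  rw [Q.toChain_apply]
  refine Finset.sum_eq_zero fun b _ => if_neg fun e => h ?_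
  rw [← e]; exact b.2

theorem toChain_sum {N : Type*} [AddCommMonoid N] (w : Q.Idx E → T) (g : Q.Cell → T → N)
    (hg0 : ∀ c, g c 0 = 0) (hg : ∀ c a b, g c (a + b) = g c a + g c b) :
    (Q.toChain w).sum g = ∑ c, g c.1 (w c) := by
  classical
  rw [toChain, ← Finsupp.sum_finsetSum_index hg0 hg]
  exact Finset.sum_congr rfl fun c _ => Finsupp.sum_single_index (hg0 _)

theorem dQ_toChain_apply (w : Q.Idx E → T) (c : Q.Cell) :
    Q.dQ (Q.toChain w) c = R.d (Q.toChain w c) + ∑ c', R.J (w c') * Q.D c'.1 c := by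
  rw [dQ_apply, Q.toChain_sum w (fun c' t => R.J t * Q.D c' c)]
  · intro c; simp
  · intro c a b; simp [add_mul]

/-- The chain of the last row. -/
noncomputable def lastRow (f : Q.F E) : Q.Cell →₀ T :=
  Q.toChain fun c => Q.fx f (Fin.last _) c

theorem lastRow_isChain (f : Q.F E) : Q.IsChain ((E : ℤ) + R.L) (Q.lastRow f) := by
  intro c
  by_cases h : E ≤ Q.deg c ∧ Q.deg c ≤ E + R.L
  · rw [lastRow, Q.toChain_apply_idx _ ⟨c, h⟩]
    refine ⟨?_, Q.fx_e f _ _⟩
    have := Q.fx_mem f (Fin.last _) ⟨c, h⟩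
    convert this using 2
    simp; ring
  · rw [lastRow, Q.toChain_apply_out _ c h]; simp

theorem sgn_smul_fx_last (f : Q.F E) (c : Q.Idx E) :
    sgn (Q.deg c.1) • Q.fx f (Fin.last _) c = sgn (R.L + E) • R.J (Q.fx f (Fin.last _) c) := by
  have := c.2
  obtain ⟨n, hn⟩ := Nat.exists_eq_add_of_le c.2.2
  have hm : Q.fx f (Fin.last _) c ∈ R.G n := by
    have h := Q.fx_mem f (Fin.last _) c
    rwa [show ((Fin.last R.L : Pos R) : ℕ) - ((Q.deg c.1 : ℤ) - E) = (n : ℤ) by simp; omega] at h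
  rw [R.J_sgn hm, smul_smul]
  congr 1
  rw [Nat.add_comm R.L E, congrArg sgn hn, sgn_add, mul_assoc, sgn_mul_self, mul_one]

open scoped Classical in
theorem fx_bd_last (f : Q.F (E + 1)) (c : Q.Idx E) :
    Q.fx (Q.bd E f) (Fin.last _) c = - (sgn (R.L + (E + 1)) • Q.dQ (Q.lastRow f) c.1) := by
  rw [Q.fx_bd, lastRow, Q.dQ_toChain_apply, Q.toChain_apply, smul_add, neg_add, map_sum,
    Finset.smul_sum, Finset.smul_sum, ← Finset.sum_neg_distrib, ← Finset.sum_neg_distrib,
    ← Finset.sum_add_distrib]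
  refine Finset.sum_congr rfl fun c' _ => ?_
  have hl : ((Fin.last R.L : Pos R) : ℕ) = R.L := rfl
  rw [Q.fy_eq_zero f _ c' (.inl hl), zero_mul, add_zero, smul_sub, sub_eq_add_neg]
  congr 1
  · by_cases h : c.1 = c'.1
    · rw [if_pos h, if_pos hl, if_pos h.symm, smul_neg, ← map_zsmul R.d, ← map_zsmul R.J,
        Q.sgn_smul_fx_last, map_zsmul R.J, R.J_J, map_zsmul]
    · rw [if_neg h, if_neg (fun e => h e.symm), map_zero, smul_zero, smul_zero, neg_zero]
  · rw [← smul_mul_assoc, ← smul_mul_assoc, Q.sgn_smul_fx_last]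

open scoped Classical in
theorem ker_bd_le (hQ : Q.Acyclic) :
    LinearMap.ker (Q.bd E) ≤ LinearMap.range (Q.bd (E + 1)) := by
  intro f hf
  rw [LinearMap.mem_ker] at hf
  have hl : ((Fin.last R.L : Pos R) : ℕ) = R.L := rfl
  -- the chain of the last row is a boundary
  have hX : Q.IsChain (((E + 1 : ℕ) : ℤ) + R.L) (Q.lastRow f) := Q.lastRow_isChain f
  have hdX : Q.dQ (Q.lastRow f) = 0 := by
    ext c
    by_cases h : E ≤ Q.deg c ∧ Q.deg c ≤ E + R.L
    · have h1 := Q.fx_bd_last f ⟨c, h⟩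
      rw [hf, show Q.fx (0 : Q.F E) (Fin.last _) ⟨c, h⟩ = 0 from map_zero _] at h1
      have := congrArg (sgn (R.L + (E + 1)) • ·) (neg_eq_zero.1 h1.symm)
      rw [smul_zero, sgn_smul_smul] at this
      simpa using this
    · have := R.width_lt_L
      exact (Q.dQ_isChain hX).apply_eq_zero _ (by push_cast; omega)
  obtain ⟨Z, hZ, hdZ⟩ := hQ _ (by have := R.L_pos; omega) _ hX hdX
  -- prescribed coordinates
  let w : Pos R → Q.Idx (E + 1 + 1) → T := fun j c =>
    if (j : ℕ) = R.L then - (sgn (R.L + (E + 1 + 1)) • Z c.1)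
    else if h : E + 1 ≤ Q.deg c.1 ∧ Q.deg c.1 ≤ E + 1 + R.L then
      sgn (Q.deg c.1) • Q.fy f j ⟨c.1, h⟩ else 0
  have hw : ∀ (j : Pos R) (c : Q.Idx (E + 1 + 1)), w j c ∈ R.G ((j : ℕ) - ((Q.deg c.1 : ℤ) - (E + 1 + 1 : ℕ))) := by
    intro j c
    simp only [w]
    split_ifs with h h'
    · refine neg_mem (zsmul_mem ?_ _)
      convert (hZ c.1).1 using 2
      rw [h]; push_cast; ring
    · refine zsmul_mem ?_ _
      convert Q.fy_mem f j ⟨c.1, h'⟩ using 2
      push_cast; ring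
    · exact zero_mem _
  have hwe : ∀ (j : Pos R) (c : Q.Idx (E + 1 + 1)), w j c * Q.e c.1 = w j c := by
    intro j c
    simp only [w]
    split_ifs with h h'
    · rw [neg_mul, smul_mul_assoc, (hZ c.1).2]
    · rw [smul_mul_assoc, Q.fy_e f j ⟨c.1, h'⟩]
    · exact zero_mul _
  refine ⟨Q.mkF w, Q.F_ext (fun j c => ?_) fun j c => ?_⟩
  · by_cases hj : (j : ℕ) = R.L
    · have hj' : j = Fin.last _ := Fin.ext (by simp [hj])
      subst hj'
      have e : Q.lastRow (Q.mkF w) = - (sgn (R.L + (E + 1 + 1)) • Z) := by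
        ext d
        by_cases h : E + 1 + 1 ≤ Q.deg d ∧ Q.deg d ≤ E + 1 + 1 + R.L
        · rw [lastRow, Q.toChain_apply_idx _ ⟨d, h⟩, (Q.fx_mkF w hw hwe _ _).1]
          simp [w, hj]
        · rw [lastRow, Q.toChain_apply_out _ d h]
          have := R.width_lt_L
          simp [hZ.apply_eq_zero (c := d) _ (by push_cast; omega)]
      rw [Q.fx_bd_last, e]
      have hneg : ∀ (z : ℤ) (x : Q.Cell →₀ T), Q.dQ (z • x) = z • Q.dQ x := by
        intro z x
        ext d
        rw [Finsupp.smul_apply, Q.dQ_apply, Q.dQ_apply, Finsupp.smul_apply, map_zsmul, smul_add,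
          Finsupp.smul_sum]
        congr 1
        rw [Finsupp.sum_of_support_subset _ Finsupp.support_smul _ (fun _ _ => by simp)]
        exact Finset.sum_congr rfl fun i _ => by
          rw [Finsupp.smul_apply, map_zsmul, smul_mul_assoc]
      rw [← neg_smul (sgn (R.L + (E + 1 + 1))) Z, hneg, hdZ, Finsupp.smul_apply, lastRow,
        Q.toChain_apply_idx, neg_smul, smul_neg, neg_neg, sgn_smul_smul]
    · rw [Q.fx_bd]
      -- the second coordinate determines the first
      by_cases hc : Q.deg c.1 = E + 1 + R.L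
      · have hx : Q.fx f j c = 0 := R.G_eq_bot (.inl (by have := j.isLt; push_cast at *; omega))
          (Q.fx_mem f j c)
        rw [hx]
        refine Finset.sum_eq_zero fun c' _ => ?_
        rw [if_neg hj, (Q.fx_mkF w hw hwe j c').2, (Q.fx_mkF w hw hwe j c').1, zero_mul,
          add_zero]
        have : Q.D c'.1 c.1 = 0 ∨ w j c' = 0 := by
          by_cases hd : Q.D c'.1 c.1 = 0
          · exact .inl hd
          · refine .inr ?_
            have := Q.D_lt _ _ hd
            simp only [w, if_neg hj]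
            rw [dif_neg (by omega)]
        rcases this with h | h <;> simp [h]
      · have hcE : E ≤ Q.deg c.1 ∧ Q.deg c.1 ≤ E + R.L := by have := c.2; omega
        have h1 := Q.fy_bd f j ⟨c.1, hcE⟩
        rw [hf, show Q.fy (0 : Q.F E) j ⟨c.1, hcE⟩ = 0 from map_zero _] at h1
        simp only [if_neg hj, if_neg (show ¬ Q.deg c.1 = E by have := c.2; omega), smul_sub,
          Finset.sum_sub_distrib] at h1
        rw [Finset.sum_eq_single c (fun b _ hb => by
            rw [if_neg (fun e : c.1 = b.1 => hb (Subtype.ext e.symm)), smul_zero])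
          (fun h => absurd (Finset.mem_univ c) h), if_pos rfl, eq_comm, sub_eq_zero] at h1
        have h2 := congrArg (sgn (Q.deg c.1) • ·) h1
        simp only [sgn_smul_smul, Finset.smul_sum] at h2
        rw [h2]
        -- reindex
        have e1 : ∀ c' : Q.Idx (E + 1), sgn (Q.deg c.1) • sgn (Q.deg c'.1) •
            (Q.fy f j c' * R.J (Q.D c'.1 c.1)) = - (Q.fy f j c' * Q.D c'.1 c.1) := by
          intro c'
          by_cases hd : Q.D c'.1 c.1 = 0
          · simp [hd]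
          obtain ⟨n, hn⟩ := Nat.exists_eq_add_of_lt (Q.D_lt _ _ hd)
          have hm : Q.D c'.1 c.1 ∈ R.G n := by
            have := Q.D_mem c'.1 c.1
            rwa [show (Q.deg c'.1 : ℤ) - 1 - Q.deg c.1 = n by omega] at this
          rw [R.J_sgn hm, mul_smul_comm, smul_smul, smul_smul, hn, sgn_add, sgn_add,
            ← neg_one_zsmul (Q.fy f j c' * _)]
          congr 1
          have ha := sgn_mul_self (Q.deg c.1)
          have hb := sgn_mul_self n
          simp only [sgn, pow_one] at *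
          linear_combination (-((-1:ℤ) ^ n * (-1) ^ n)) * ha - hb
        rw [Finset.sum_congr rfl fun c' _ => e1 c']
        -- both sides only see the common cells
        symm
        refine Finset.sum_bij_ne_zero (fun c' _ hne => (⟨c'.1, ?_, by have := c'.2; omega⟩ :
            Q.Idx (E + 1 + 1))) (fun _ _ _ => Finset.mem_univ _) (fun a _ _ b _ _ h => ?_)
          (fun b _ hb => ?_) fun c' _ hne => ?_
        · by_contra hlt
          exact hne (by rw [Q.fy_eq_zero f j c' (.inr (by have := c'.2; omega)), zero_mul, neg_zero])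
        · exact Subtype.ext (congrArg (fun z : Q.Idx (E + 1 + 1) => z.1) h)
        · have hb' : E + 1 ≤ Q.deg b.1 ∧ Q.deg b.1 ≤ E + 1 + R.L := by
            by_contra h
            apply hb
            simp only [if_neg hj]
            rw [(Q.fx_mkF w hw hwe j b).1, (Q.fx_mkF w hw hwe j b).2]
            simp only [w, if_neg hj]
            rw [dif_neg h, zero_mul, zero_mul, add_zero, ite_self, sub_zero, smul_zero]
          refine ⟨⟨b.1, hb'⟩, Finset.mem_univ _, ?_, rfl⟩
          intro h0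
          apply hb
          simp only [if_neg hj]
          rw [(Q.fx_mkF w hw hwe j b).1, (Q.fx_mkF w hw hwe j b).2]
          simp only [w, if_neg hj, dif_pos hb', zero_mul, add_zero, ite_self, zero_sub, smul_neg,
            ← smul_mul_assoc, sgn_smul_smul]
          exact h0
        · simp only [if_neg hj]
          rw [(Q.fx_mkF w hw hwe j _).1, (Q.fx_mkF w hw hwe j _).2]
          simp only [w, if_neg hj, dif_pos c'.2, zero_mul, add_zero, ite_self, zero_sub, smul_neg,
            ← smul_mul_assoc, sgn_smul_smul]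
  · rw [Q.fy_bd]
    by_cases hj : (j : ℕ) = R.L
    · rw [Q.fy_eq_zero f j c (.inl hj)]
      refine Finset.sum_eq_zero fun c' _ => ?_
      rw [if_pos hj, (Q.fx_mkF w hw hwe j c').2]; simp
    · by_cases hc : E + 1 + 1 ≤ Q.deg c.1
      · rw [Finset.sum_eq_single (⟨c.1, hc, by have := c.2; omega⟩ : Q.Idx (E + 1 + 1))]
        · rw [if_pos rfl, if_neg hj, (Q.fx_mkF w hw hwe j _).1, (Q.fx_mkF w hw hwe j _).2, zero_mul,
            ite_self, sub_zero]
          simp only [w, if_neg hj]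
          rw [dif_pos c.2, sgn_smul_smul]
        · intro b _ hb
          rw [if_neg (fun e : c.1 = b.1 => hb (Subtype.ext e.symm)),
            (Q.fx_mkF w hw hwe j b).2, zero_mul, ite_self, sub_zero, smul_zero]
        · exact fun h => absurd (Finset.mem_univ _) h
      · rw [Q.fy_eq_zero f j c (.inr (by have := c.2; omega))]
        refine Finset.sum_eq_zero fun b _ => ?_
        rw [if_neg (fun e : c.1 = b.1 => hc (e ▸ b.2.1)),
          (Q.fx_mkF w hw hwe j b).2, zero_mul, ite_self, sub_zero, smul_zero]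

theorem exact_bd (hQ : Q.Acyclic) : LinearMap.range (Q.bd (E + 1)) = LinearMap.ker (Q.bd E) :=
  le_antisymm (LinearMap.range_le_ker_iff.2 (Q.bd_bd E)) (Q.ker_bd_le hQ)

end Cells

end P195.Window
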