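import Vale.Agent.P195.Window.Syz

/-!
P195, window machine: acyclic cells with exact cochains give a finite-dimensional algebra and
a non-projective module without self-extensions and without extensions into the algebra.
-/

open CategoryTheory Abelian

namespace P195.Window

variable {k T : Type} [Field k] [Ring T] [Algebra k T] {R : DGA k T}

namespace Cells

variable (Q : Cells R)

theorem M_rows (hQ : Q.Acyclic) (n : ℕ) (hn : 0 < n) (z : Q.M) (hz : ev R (n : ℤ) • z = z)
    (hd : del R • z = 0) : ∃ y : Q.M, ev R ((n : ℤ) + 1) • y = y ∧ del R • y = z := by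
  by_cases hnL : R.L < n
  · exact ⟨0, smul_zero _, by rw [← hz, ev_out (by omega), zero_smul, smul_zero]⟩
  obtain ⟨X, hX, rfl⟩ := Q.exists_chain (by omega) hz
  rw [Q.del_ι] at hd
  have h1 := Q.ι_injective (by omega) (Q.dQ_isChain hX) hd
  obtain ⟨W, hW, hdW⟩ := hQ n (by omega) X hX h1
  exact ⟨Q.ι W, Q.ev_ι hW, by rw [Q.del_ι, hdW]⟩

variable {Y : Type} [AddCommGroup Y] [Module k Y] [Module T Y] {SY : Target R Y}

theorem exactMod_M (hQ : Q.Acyclic) (aug : Augmentation Q SY) {n : ℕ}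
    (hY : Q.ExactAt SY ((n : ℤ) + 1)) : Q.ExactMod Q.M n := by
  classical
  letI := moduleOfTarget SY aug.concentrated aug.top
  let W := modelOfTarget SY aug.concentrated aug.top
  have hηd : Q.InDeg 0 (fun c => W.ι (aug.η c)) := W.inDeg_ι Q (by simpa using aug.isCochain)
  have hηc : Q.IsCoc (fun c => W.ι (aug.η c)) := (W.coc_ι Q _).2 aug.isCocycle
  have hker : LinearMap.range (Q.bd 0) ≤ LinearMap.ker (Q.hom 0 fun c => W.ι (aug.η c)) := by
    rw [LinearMap.range_le_ker_iff, Q.comp_bd]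
    refine LinearMap.ext fun f => ?_
    rw [hom_apply]
    refine Finset.sum_eq_zero fun c _ => ?_
    have : (fun c => (Q.hom 0 fun c => W.ι (aug.η c)) (Q.gen 0 c)) = fun c => W.ι (aug.η c) :=
      funext fun c => Q.hom_gen hηd c
    rw [this, Q.cobd_eq_zero.2 hηc, smul_zero]
  let h : Q.M →ₗ[Alg R] Y := (LinearMap.range (Q.bd 0)).liftQ _ hker
  have hgen : ∀ c, h (Q.genM c) = W.ι (aug.η c) := fun c => Q.hom_gen hηd c
  have hι : ∀ X : Q.Cell →₀ T, h (Q.ι X) = X.sum fun c t => t • aug.η c := by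
    intro X
    rw [ι_apply, map_finsuppSum]
    refine Finsupp.sum_congr fun c _ => ?_
    rw [map_smul, hgen, ← W.map_smul]
    rfl
  have hbot : ∀ z : Q.M, ev R (0 : ℤ) • z = z → h z = 0 →
      ∃ y : Q.M, ev R (1 : ℤ) • y = y ∧ del R • y = z := by
    intro z hz hz0
    obtain ⟨X, hX, rfl⟩ := Q.exists_chain (n := 0) (Nat.zero_le _) (by simpa using hz)
    rw [hι] at hz0
    obtain ⟨V, hV, hdV⟩ := aug.exact X (by simpa using hX) hz0
    exact ⟨Q.ι V, Q.ev_ι hV, by rw [Q.del_ι, hdV]⟩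
  intro φ hφ hc
  have h1 : Q.InDeg (n + 1) (fun c => h (φ c)) := Q.inDeg_comp hφ h
  have h2 : Q.IsCoc (fun c => h (φ c)) := fun c => by
    rw [← map_smul, hc c, map_finsuppSum]
    simp only [map_smul]
  obtain ⟨ψb, hψb, hdb⟩ := W.exactMod Q hY _ h1 h2
  -- lift to `M`
  have hlift : ∀ c, ∃ y : Q.M, ev R ((Q.deg c : ℤ) - n) • y = y ∧ act R (Q.e c) • y = y ∧
      h y = ψb c := by
    intro c
    by_cases hdeg : Q.deg c = n
    · obtain ⟨X, hX, hXu⟩ := aug.surj (ψb c)
      have hy : ev R ((Q.deg c : ℤ) - n) • Q.ι X = Q.ι X := by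
        rw [hdeg, sub_self]; exact Q.ev_ι hX
      refine ⟨act R (Q.e c) • Q.ι X, ?_, ?_, ?_⟩
      · rw [← mul_smul, Q.ev_comm, mul_smul, hy]
      · rw [← mul_smul, ← map_mul, Q.e_idem]
      · rw [map_smul, hι, hXu, (hψb c).2]
    · refine ⟨0, smul_zero _, smul_zero _, ?_⟩
      obtain ⟨v, hv, hv'⟩ := W.lift _ _ (hψb c).1
      rw [map_zero, ← hv']
      rw [aug.concentrated _ (by omega), Submodule.mem_bot] at hv
      rw [hv, map_zero]
  choose ψ1 hy1 hy2 hy3 using hlift
  have hψ1 : Q.InDeg n ψ1 := fun c => ⟨hy1 c, hy2 c⟩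
  have hzero : ∀ c, h ((φ - Q.cobd ψ1) c) = 0 := by
    intro c
    rw [Pi.sub_apply, map_sub, sub_eq_zero, cobd, map_zsmul, map_sub, map_smul, map_finsuppSum,
      hy3]
    simp only [map_smul, hy3]
    exact (congrFun hdb c).symm
  obtain ⟨ψ2, hψ2, hd2⟩ := Q.exact_of_bottom (Q.M_rows hQ)
    (Q.inDeg_sub hφ (Q.cobd_inDeg hψ1)) (Q.coc_sub_cobd hc) fun c hdeg => by
      refine hbot _ ?_ (hzero c)
      have := ((Q.inDeg_sub hφ (Q.cobd_inDeg hψ1)) c).1
      rwa [show (Q.deg c : ℤ) - ((n + 1 : ℕ) : ℤ) = 0 by omega] at this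
  exact ⟨ψ1 + ψ2, Q.inDeg_add hψ1 hψ2, by rw [Q.cobd_add, hd2, add_sub_cancel]⟩

/-- Maps from the image of the differential extend to the whole projective. -/
theorem exists_extend {U : Type} [AddCommGroup U] [Module (Alg R) U] {E : ℕ}
    (hU : Q.ExactMod U E) (g : LinearMap.range (Q.bd E) →ₗ[Alg R] U) :
    ∃ h : Q.F E →ₗ[Alg R] U, h.comp (LinearMap.range (Q.bd E)).subtype = g := by
  let g' : Q.F (E + 1) →ₗ[Alg R] U := g.comp (Q.bd E).rangeRestrict
  let φ : Q.Cell → U := fun c => g' (Q.gen (E + 1) c)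
  have hφ : Q.InDeg (E + 1) φ := Q.inDeg_comp (Q.gen_inDeg _) _
  have hc : Q.IsCoc φ := by
    rw [← Q.cobd_eq_zero]
    intro c
    have h0 : g'.comp (Q.bd (E + 1)) = 0 := by
      refine LinearMap.ext fun f => ?_
      have : (Q.bd E).rangeRestrict (Q.bd (E + 1) f) = 0 :=
        Subtype.ext (LinearMap.congr_fun (Q.bd_bd E) f)
      simp [g', this]
    rw [Q.comp_bd] at h0
    rw [← Q.hom_gen (Q.cobd_inDeg hφ) c]
    exact LinearMap.congr_fun h0 _
  obtain ⟨ψ, hψ, hd⟩ := hU φ hφ hc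
  refine ⟨Q.hom E ψ, LinearMap.ext ?_⟩
  rintro ⟨_, f, rfl⟩
  show (Q.hom E ψ).comp (Q.bd E) f = g' f
  rw [Q.comp_bd, show (fun c => Q.hom E ψ (Q.gen E c)) = ψ from funext fun c => Q.hom_gen hψ c, hd,
    Q.hom_gen_eq]

/-- The image of the differential. -/
noncomputable abbrev im (E : ℕ) : Submodule (Alg R) (Q.F E) := LinearMap.range (Q.bd E)

noncomputable instance instAddCommGroupF (E : ℕ) : AddCommGroup (Q.F E) :=
  Submodule.addCommGroup (Q.F E)

noncomputable instance instAddCommGroupIm (E : ℕ) : AddCommGroup (Q.im E) :=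
  Submodule.addCommGroup (Q.im E)

/-- The short exact sequences of the resolution. -/
noncomputable def ses : ℕ → ShortComplex (ModuleCat.{0} (Alg R))
  | 0 => ShortComplex.mk (ModuleCat.ofHom (LinearMap.range (Q.bd 0)).subtype)
      (ModuleCat.ofHom (LinearMap.range (Q.bd 0)).mkQ)
      (by ext1; exact LinearMap.ext fun x => (Submodule.Quotient.mk_eq_zero _).2 x.2)
  | E + 1 => ShortComplex.mk (ModuleCat.ofHom (LinearMap.range (Q.bd (E + 1))).subtype)
      (ModuleCat.ofHom (Q.bd E).rangeRestrict)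
      (by
        ext1
        refine LinearMap.ext fun x => Subtype.ext ?_
        obtain ⟨f, hf⟩ := x.2
        show Q.bd E x.1 = 0
        rw [← hf]
        exact LinearMap.congr_fun (Q.bd_bd E) f)

theorem ses_exact (hQ : Q.Acyclic) : ∀ E, (Q.ses E).ShortExact
  | 0 =>
    { exact := (ShortComplex.ShortExact.moduleCat_exact_iff_function_exact _).2
        (LinearMap.exact_subtype_mkQ _)
      mono_f := (ModuleCat.mono_iff_injective _).2 (Submodule.injective_subtype _)
      epi_g := (ModuleCat.epi_iff_surjective _).2 (Submodule.mkQ_surjective _) }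
  | E + 1 =>
    { exact := by
        have h : Function.Exact (LinearMap.range (Q.bd (E + 1))).subtype (Q.bd E).rangeRestrict := by
          rw [LinearMap.exact_iff, Submodule.range_subtype, LinearMap.ker_rangeRestrict,
            ← Q.exact_bd hQ]
        exact (ShortComplex.ShortExact.moduleCat_exact_iff_function_exact _).2 h
      mono_f := (ModuleCat.mono_iff_injective _).2 (Submodule.injective_subtype _)
      epi_g := (ModuleCat.epi_iff_surjective _).2
        (show Function.Surjective (Q.bd E).rangeRestrict from LinearMap.surjective_rangeRestrict _) }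

theorem ses_extend {U : ModuleCat.{0} (Alg R)} (E : ℕ) (hU : Q.ExactMod U E)
    (g : (Q.ses E).X₁ ⟶ U) : ∃ h : (Q.ses E).X₂ ⟶ U, (Q.ses E).f ≫ h = g := by
  cases E with
  | zero =>
    obtain ⟨h, hh⟩ := Q.exists_extend hU g.hom
    exact ⟨ModuleCat.ofHom h, ModuleCat.hom_ext hh⟩
  | succ E =>
    obtain ⟨h, hh⟩ := Q.exists_extend hU g.hom
    exact ⟨ModuleCat.ofHom h, ModuleCat.hom_ext hh⟩

theorem ses_projective : ∀ E, Projective (Q.ses E).X₂
  | 0 => (IsProjective.iff_projective (R := Alg R) _).1 inferInstance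
  | E + 1 => (IsProjective.iff_projective (R := Alg R) _).1 inferInstance

theorem ses_next : ∀ E, (Q.ses E).X₁ = (Q.ses (E + 1)).X₃
  | 0 => rfl
  | _ + 1 => rfl

theorem ext_zero_congr {X X' U : ModuleCat.{0} (Alg R)} {n : ℕ} (h : X = X')
    (hX : ∀ e : Ext X' U n, e = 0) (e : Ext X U n) : e = 0 := by
  subst h; exact hX e

theorem ext_eq_zero (hQ : Q.Acyclic) (U : ModuleCat.{0} (Alg R)) (hU : ∀ E, Q.ExactMod U E) :
    ∀ (m E : ℕ) (e : Ext (Q.ses E).X₃ U (m + 1)), e = 0 := by
  intro m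
  induction m with
  | zero =>
    intro E e
    have := Q.ses_projective E
    obtain ⟨x, hx⟩ := Ext.contravariant_sequence_exact₃ (Q.ses_exact hQ E) U e
      (Ext.eq_zero_of_projective _) (show 1 + 0 = 0 + 1 by rfl)
    obtain ⟨g, rfl⟩ := (Ext.mk₀_bijective _ _).2 x
    obtain ⟨h, rfl⟩ := Q.ses_extend E (hU E) g
    rw [← hx, ← Ext.mk₀_comp_mk₀, ← Ext.comp_assoc_of_second_deg_zero,
      (Q.ses_exact hQ E).extClass_comp, Ext.zero_comp]
  | succ m ih =>
    intro E e
    have := Q.ses_projective E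
    obtain ⟨x, hx⟩ := Ext.contravariant_sequence_exact₃ (Q.ses_exact hQ E) U e
      (Ext.eq_zero_of_projective _) (show 1 + (m + 1) = m + 1 + 1 by omega)
    have : x = 0 := ext_zero_congr (Q.ses_next E) (ih (E + 1)) x
    rw [← hx, this, Ext.comp_zero]

theorem exactMod_of_projective (hQ : Q.Acyclic) (hM : Projective (Q.ses 0).X₃)
    {U : Type} [AddCommGroup U] [Module (Alg R) U] (E : ℕ) : Q.ExactMod U E := by
  have hall : ∀ E, Projective (Q.ses E).X₃ := by
    intro E
    induction E with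
    | zero => exact hM
    | succ E ih =>
      rw [← Q.ses_next E]
      have := ih
      have := Q.ses_projective E
      have := (Q.ses_exact hQ E).epi_g
      let s := Projective.factorThru (𝟙 _) (Q.ses E).g
      let σ := ShortComplex.Splitting.ofExactOfSection _ (Q.ses_exact hQ E).exact s
        (Projective.factorThru_comp _ _) (Q.ses_exact hQ E).mono_f
      exact Retract.projective ⟨(Q.ses E).f, σ.r, σ.f_r⟩
  intro φ hφ hc
  -- the cochain factors through the image of the differential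
  have h0 : (Q.hom (E + 1) φ).comp (Q.bd (E + 1)) = 0 := by
    rw [Q.comp_bd, show (fun c => Q.hom (E + 1) φ (Q.gen (E + 1) c)) = φ from
      funext fun c => Q.hom_gen hφ c]
    refine LinearMap.ext fun f => ?_
    simp [hom_apply, Q.cobd_eq_zero.2 hc]
  have hle : LinearMap.ker (Q.bd E).rangeRestrict ≤ LinearMap.ker (Q.hom (E + 1) φ) := by
    rw [LinearMap.ker_rangeRestrict, ← Q.exact_bd hQ]
    exact LinearMap.range_le_ker_iff.2 h0
  have : Module.Projective (Alg R) (LinearMap.range (Q.bd E)) :=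
    (IsProjective.iff_projective (R := Alg R) _).2
      (show Projective (ModuleCat.of (Alg R) (LinearMap.range (Q.bd E))) from hall (E + 1))
  obtain ⟨s, hs⟩ := Module.projective_lifting_property (Q.bd E).rangeRestrict LinearMap.id
    (LinearMap.surjective_rangeRestrict _)
  let g : LinearMap.range (Q.bd E) →ₗ[Alg R] U := (Q.hom (E + 1) φ).comp s
  -- the image is a direct summand
  have : Projective (Q.ses E).X₃ := hall E
  have := (Q.ses_exact hQ E).epi_g
  have hext : ∀ E', Projective (Q.ses E').X₃ → ∀ g : (Q.ses E').X₁ ⟶ ModuleCat.of (Alg R) U,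
      ∃ h, (Q.ses E').f ≫ h = g := by
    intro E' hP g
    have := hP
    have := (Q.ses_exact hQ E').epi_g
    let σ := ShortComplex.Splitting.ofExactOfSection _ (Q.ses_exact hQ E').exact
      (Projective.factorThru (𝟙 _) (Q.ses E').g) (Projective.factorThru_comp _ _)
      (Q.ses_exact hQ E').mono_f
    exact ⟨σ.r ≫ g, by rw [← Category.assoc, σ.f_r, Category.id_comp]⟩
  obtain ⟨h, hh⟩ : ∃ h : Q.F E →ₗ[Alg R] U, h.comp (LinearMap.range (Q.bd E)).subtype = g := by
    cases E with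
    | zero =>
      obtain ⟨h, hh⟩ := hext 0 (hall 0) (ModuleCat.ofHom g)
      exact ⟨h.hom, congrArg ModuleCat.Hom.hom hh⟩
    | succ E =>
      obtain ⟨h, hh⟩ := hext (E + 1) (hall _) (ModuleCat.ofHom g)
      exact ⟨h.hom, congrArg ModuleCat.Hom.hom hh⟩
  refine ⟨fun c => h (Q.gen E c), Q.inDeg_comp (Q.gen_inDeg E) h, funext fun c => ?_⟩
  rw [← Q.hom_gen (Q.cobd_inDeg (Q.inDeg_comp (Q.gen_inDeg E) h)) c, ← Q.comp_bd]
  have key : ∀ f, Q.hom (E + 1) φ (s ((Q.bd E).rangeRestrict f)) = Q.hom (E + 1) φ f := by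
    intro f
    rw [← sub_eq_zero, ← map_sub]
    refine hle ?_
    rw [LinearMap.mem_ker, map_sub, sub_eq_zero]
    exact LinearMap.congr_fun hs _
  calc h (Q.bd E (Q.gen (E + 1) c)) = g ((Q.bd E).rangeRestrict (Q.gen (E + 1) c)) := by
        rw [← hh]; rfl
    _ = φ c := by rw [show g = (Q.hom (E + 1) φ).comp s from rfl, LinearMap.comp_apply, key,
        Q.hom_gen hφ c]

end Cells

/-- The machine. -/
theorem counterexample [FiniteDimensional k T] {Y V : Type} [AddCommGroup Y] [Module k Y]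
    [Module T Y] [AddCommGroup V] [Module k V] [Module T V]
    (Q : Cells R) (hQ : Q.Acyclic) (SY : Target R Y) (aug : Augmentation Q SY)
    (hT : ∀ E : ℤ, 0 < E → Q.ExactAt (Target.self R) E)
    (hY : ∀ E : ℤ, 0 < E → Q.ExactAt SY E)
    (SV : Target R V) (hV0 : ∀ n : ℤ, n ≠ 0 → SV.G n = ⊥) (hVtop : SV.G 0 = ⊤)
    (E : ℤ) (hE : 0 < E) (hV : ¬ Q.ExactAt SV E) :
    ∃ (A : Type) (_ : Ring A) (_ : Algebra k A), FiniteDimensional k A ∧
      ∃ M : ModuleCat.{0} A, Module.Finite A M ∧ ¬ Projective M ∧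
        ∀ i : ℕ, 1 ≤ i → Subsingleton (Ext M M i) ∧ Subsingleton (Ext M (ModuleCat.of A A) i) := by
  refine ⟨Alg R, inferInstance, inferInstance, inferInstance, (Q.ses 0).X₃,
    Module.Finite.of_surjective _ (Submodule.mkQ_surjective (LinearMap.range (Q.bd 0))),
    fun hP => hV ?_, fun i hi => ?_⟩
  · obtain ⟨n, rfl⟩ : ∃ n : ℕ, E = (n : ℤ) + 1 := ⟨(E - 1).toNat, by omega⟩
    letI := moduleOfTarget SV hV0 hVtop
    exact (modelOfTarget SV hV0 hVtop).exactAt Q (Q.exactMod_of_projective hQ hP n)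
  · obtain ⟨m, rfl⟩ : ∃ m, i = m + 1 := ⟨i - 1, by omega⟩
    constructor
    · refine subsingleton_of_forall_eq 0 fun e => Q.ext_eq_zero hQ _ (fun n => ?_) m 0 e
      exact Q.exactMod_M hQ aug (hY _ (by omega))
    · refine subsingleton_of_forall_eq 0 fun e => Q.ext_eq_zero hQ _ (fun n => ?_) m 0 e
      exact exactMod_self Q (hT _ (by omega))

end P195.Window
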