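import Vale.Agent.P195.Window.Exact

/-! P195, window machine: exactness of the cochains in modules over the window algebra. -/

namespace P195.Window

variable {k T : Type} [Field k] [Ring T] [Algebra k T] {R : DGA k T}

/-- The element `sgn n` on a `k`-space. -/
theorem sgn_smul_eq {V : Type*} [AddCommGroup V] [Module k V] (n : ℕ) (v : V) :
    ((-1 : k) ^ n) • v = sgn n • v := by
  rw [← Int.cast_smul_eq_zsmul k]; simp [sgn]

namespace Cells

variable (Q : Cells R) {U : Type} [AddCommGroup U] [Module (Alg R) U]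

variable (U) in
/-- Cochains of degree `n + 1` that are cocycles are coboundaries. -/
def ExactMod (n : ℕ) : Prop :=
  ∀ φ : Q.Cell → U, Q.InDeg (n + 1) φ → Q.IsCoc φ → ∃ ψ, Q.InDeg n ψ ∧ Q.cobd ψ = φ

theorem cobd_add (φ ψ : Q.Cell → U) : Q.cobd (φ + ψ) = Q.cobd φ + Q.cobd ψ := by
  funext c
  simp only [cobd, Pi.add_apply]
  rw [← smul_add]
  congr 1
  simp only [smul_add, Finsupp.sum_add]
  abel

theorem cobd_sub (φ ψ : Q.Cell → U) : Q.cobd (φ - ψ) = Q.cobd φ - Q.cobd ψ :=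
  eq_sub_of_add_eq (by rw [← cobd_add, sub_add_cancel])

theorem cobd_zero : Q.cobd (0 : Q.Cell → U) = 0 := by
  funext c; simp [cobd, Finsupp.sum]

theorem inDeg_sub {E : ℕ} {φ ψ : Q.Cell → U} (h : Q.InDeg E φ) (h' : Q.InDeg E ψ) :
    Q.InDeg E (φ - ψ) := fun c =>
  ⟨by simp [smul_sub, (h c).1, (h' c).1], by simp [smul_sub, (h c).2, (h' c).2]⟩

theorem inDeg_add {E : ℕ} {φ ψ : Q.Cell → U} (h : Q.InDeg E φ) (h' : Q.InDeg E ψ) :
    Q.InDeg E (φ + ψ) := fun c =>
  ⟨by simp [smul_add, (h c).1, (h' c).1], by simp [smul_add, (h c).2, (h' c).2]⟩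

theorem inDeg_zero (E : ℕ) : Q.InDeg E (0 : Q.Cell → U) := fun c => by simp

theorem coc_sub_cobd {φ ψ : Q.Cell → U} (h : Q.IsCoc φ) : Q.IsCoc (φ - Q.cobd ψ) := by
  rw [← Q.cobd_eq_zero]
  intro c
  rw [Q.cobd_sub, Pi.sub_apply, Q.cobd_eq_zero.2 h c, Q.cobd_cobd, sub_zero]

open scoped Classical in
/-- Lifting cell by cell: it is enough to solve in the bottom degree. -/
theorem exact_of_bottom (hU : ∀ n : ℕ, 0 < n → ∀ z : U, ev R (n : ℤ) • z = z → del R • z = 0 →
      ∃ y : U, ev R ((n : ℤ) + 1) • y = y ∧ del R • y = z)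
    {E : ℕ} {φ : Q.Cell → U} (hφ : Q.InDeg (E + 1) φ) (hc : Q.IsCoc φ)
    (h0 : ∀ c, Q.deg c = E + 1 → ∃ y : U, ev R (1 : ℤ) • y = y ∧ del R • y = φ c) :
    ∃ ψ, Q.InDeg E ψ ∧ Q.cobd ψ = φ := by
  suffices H : ∀ N, ∃ ψ, Q.InDeg E ψ ∧ (∀ c, N ≤ Q.deg c ∨ Q.deg c ≤ E → ψ c = 0) ∧
      ∀ c, Q.deg c < N → Q.cobd ψ c = φ c by
    obtain ⟨ψ, h1, _, h2⟩ := H (E + 1 + R.L + 1)
    refine ⟨ψ, h1, funext fun c => ?_⟩
    by_cases h : Q.deg c < E + 1 + R.L + 1
    · exact h2 c h
    · rw [(Q.cobd_inDeg h1).eq_zero _ (by omega), hφ.eq_zero _ (by omega)]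
  intro N
  induction N with
  | zero => exact ⟨0, Q.inDeg_zero E, fun _ _ => rfl, fun c h => absurd h (Nat.not_lt_zero _)⟩
  | succ N ih =>
    obtain ⟨ψ, hψ, hz, hval⟩ := ih
    let χ := φ - Q.cobd ψ
    have hχ : Q.InDeg (E + 1) χ := Q.inDeg_sub hφ (Q.cobd_inDeg hψ)
    have key : ∀ c, Q.deg c = N → E < Q.deg c → ∃ y : U, ev R ((Q.deg c : ℤ) - E) • y = y ∧
        act R (Q.e c) • y = y ∧ del R • y = sgn (Q.deg c) • χ c := by
      intro c hc' hE
      suffices ∃ y : U, ev R ((Q.deg c : ℤ) - E) • y = y ∧ del R • y = χ c by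
        obtain ⟨y, hy, hd⟩ := this
        refine ⟨sgn (Q.deg c) • (act R (Q.e c) • y), ?_, ?_, ?_⟩
        · rw [smul_comm, ← mul_smul, Q.ev_comm, mul_smul, hy]
        · rw [smul_comm, ← mul_smul (act R (Q.e c)), ← map_mul, Q.e_idem]
        · rw [smul_comm, ← mul_smul, Q.del_act_e, mul_smul, hd, (hχ c).2]
      rcases (show N = E + 1 ∨ E + 1 < N by omega) with hN | hN
      · obtain ⟨y, hy, hd⟩ := h0 c (by omega)
        refine ⟨y, by rwa [show ((Q.deg c : ℤ) - E) = 1 by omega], ?_⟩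
        have h1 : ((Q.D c).sum fun c' a => act R a • ψ c') = 0 := by
          refine Finset.sum_eq_zero fun c' hc'' => ?_
          have hlt := Q.D_lt c c' (Finsupp.mem_support_iff.1 hc'')
          show act R _ • ψ c' = 0
          rw [hz c' (by omega), smul_zero]
        have : Q.cobd ψ c = 0 := by
          rw [cobd, h1, hz c (.inl hc'.ge), smul_zero, sub_zero, smul_zero]
        rw [hd]; simp [χ, this]
      · obtain ⟨n, hn⟩ := Nat.exists_eq_add_of_lt hN
        have hnc : (Q.deg c : ℤ) - ((E + 1 : ℕ) : ℤ) = ((n + 1 : ℕ) : ℤ) := by omega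
        obtain ⟨y, hy, hd⟩ := hU (n + 1) (Nat.succ_pos n) (χ c)
          (by rw [← hnc]; exact (hχ c).1) (by
            rw [(Q.coc_sub_cobd hc) c]
            refine Finset.sum_eq_zero fun c' hc'' => ?_
            have hlt := Q.D_lt c c' (Finsupp.mem_support_iff.1 hc'')
            show act R _ • (φ - Q.cobd ψ) c' = 0
            rw [Pi.sub_apply, hval c' (by omega), sub_self, smul_zero])
        refine ⟨y, ?_, hd⟩
        rwa [show ((Q.deg c : ℤ) - E) = ((n + 1 : ℕ) : ℤ) + 1 by omega]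
    choose y hy1 hy2 hy3 using key
    let η : Q.Cell → U := fun c => if h : Q.deg c = N ∧ E < Q.deg c then y c h.1 h.2 else 0
    have hη : Q.InDeg E η := fun c => by
      simp only [η]
      split_ifs with h
      · exact ⟨hy1 c h.1 h.2, hy2 c h.1 h.2⟩
      · simp
    refine ⟨ψ + η, Q.inDeg_add hψ hη, fun c hc' => ?_, fun c hc' => ?_⟩
    · simp only [η, Pi.add_apply, dif_neg (show ¬ (Q.deg c = N ∧ E < Q.deg c) by omega)]
      rw [hz c (by omega), add_zero]
    · rw [Q.cobd_add, Pi.add_apply]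
      have hsum : ((Q.D c).sum fun c' a => act R a • η c') = 0 := by
        refine Finset.sum_eq_zero fun c' hc'' => ?_
        have hlt := Q.D_lt c c' (Finsupp.mem_support_iff.1 hc'')
        show act R _ • η c' = 0
        simp only [η, dif_neg (show ¬ (Q.deg c' = N ∧ E < Q.deg c') by omega), smul_zero]
      have hη' : Q.cobd η c = sgn (Q.deg c) • (del R • η c) := by rw [cobd, hsum, sub_zero]
      rw [hη']
      by_cases h : Q.deg c = N ∧ E < Q.deg c
      · simp only [η, dif_pos h]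
        rw [hy3, sgn_smul_smul]
        simp [χ]
      · simp only [η, dif_neg h, smul_zero, add_zero]
        by_cases h' : Q.deg c < N
        · exact hval c h'
        · rw [(Q.cobd_inDeg hψ).eq_zero _ (by omega), hφ.eq_zero _ (by omega)]

end Cells

end P195.Window
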