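import Vale.Agent.P195.Window.Elems

/-! P195, window machine: the projective resolution attached to the cells. -/

namespace P195.Window

variable {k T : Type} [Field k] [Ring T] [Algebra k T] {R : DGA k T}

/-- A sign. -/
def sgn (n : ℕ) : ℤ := (-1) ^ n

theorem sgn_mul_self (n : ℕ) : sgn n * sgn n = 1 := by
  simp [sgn, ← mul_pow]

theorem sgn_smul_smul {V : Type*} [AddCommGroup V] (n : ℕ) (v : V) : sgn n • sgn n • v = v := by
  rw [smul_smul, sgn_mul_self, one_smul]

theorem sgn_add (m n : ℕ) : sgn (m + n) = sgn m * sgn n := pow_add _ _ _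

theorem DGA.J_sgn (R : DGA k T) {n : ℕ} {a : T} (ha : a ∈ R.G n) : R.J a = sgn n • a := by
  rw [R.J_of_mem ha, ← Int.cast_smul_eq_zsmul k]
  simp [sgn]

namespace Cells

variable (Q : Cells R)

theorem finite_below (n : ℕ) : {c | Q.deg c < n}.Finite := by
  induction n with
  | zero => simp
  | succ n ih =>
    have h : {c | Q.deg c = n}.Finite := Set.finite_coe_iff.1 (Q.finite_fiber n)
    refine (ih.union h).subset fun c hc => ?_
    simp only [Set.mem_ofPred_eq, Set.mem_union] at *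
    omega

/-- The cells of degree less than `n`. -/
noncomputable def below (n : ℕ) : Finset Q.Cell := (Q.finite_below n).toFinset

theorem mem_below {n : ℕ} {c : Q.Cell} : c ∈ Q.below n ↔ Q.deg c < n := by simp [below]

theorem D_eq_zero {c c' : Q.Cell} (h : Q.deg c ≤ Q.deg c') : Q.D c c' = 0 :=
  by_contra fun h' => (Q.D_lt c c' h').not_ge h

theorem D_sum {N : Type*} [AddCommMonoid N] (c : Q.Cell) (g : Q.Cell → T → N)
    (hg : ∀ c', g c' 0 = 0) (n : ℕ) (hn : Q.deg c ≤ n) :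
    (Q.D c).sum g = ∑ c' ∈ Q.below n, g c' (Q.D c c') := by
  refine Finsupp.sum_of_support_subset _ (fun c' hc' => ?_) _ fun c' _ => hg c'
  rw [Q.mem_below]
  exact lt_of_lt_of_le (Q.D_lt c c' (Finsupp.mem_support_iff.1 hc')) hn

theorem dQ_apply (x : Q.Cell →₀ T) (c : Q.Cell) :
    Q.dQ x c = R.d (x c) + x.sum fun c' t => R.J t * Q.D c' c := by
  simp [dQ, Finsupp.sum]

/-- A chain lives on cells of bounded degree. -/
theorem IsChain.apply_eq_zero {n : ℤ} {x : Q.Cell →₀ T} (hx : Q.IsChain n x) {c : Q.Cell}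
    (h : n < (Q.deg c : ℤ) ∨ (Q.deg c : ℤ) + R.width < n) : x c = 0 :=
  R.G_eq_bot (by omega) (hx c).1

theorem dQ_isChain {n : ℤ} {x : Q.Cell →₀ T} (hx : Q.IsChain n x) :
    Q.IsChain (n - 1) (Q.dQ x) := by
  intro c
  rw [dQ_apply]
  constructor
  · refine add_mem (R.d_G' (hx c).1 (by ring)) (sum_mem fun c' _ => ?_)
    exact R.mul_G' (R.J_G (hx c').1) (Q.D_mem c' c) (by ring)
  · rw [add_mul, Finsupp.sum, Finset.sum_mul]
    congr 1
    · conv_rhs => rw [← (hx c).2, R.d_mul, Q.d_e, mul_zero, add_zero]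
    · exact Finset.sum_congr rfl fun c' _ => by rw [mul_assoc, Q.D_e]

/-! The modules `F E`. -/

/-- The cells seen by `F E`. -/
abbrev Idx (E : ℕ) : Type := {c // E ≤ Q.deg c ∧ Q.deg c ≤ E + R.L}

noncomputable instance (E : ℕ) : Fintype (Q.Idx E) :=
  @Fintype.ofFinite _ (((Q.finite_below (E + R.L + 1)).subset fun c hc => by
    simp only [Set.mem_ofPred_eq] at *; omega : {c | E ≤ Q.deg c ∧ Q.deg c ≤ E + R.L}.Finite).to_subtype)

/-- The idempotent of a cell. -/
noncomputable def idem (E : ℕ) (c : Q.Cell) : Alg R :=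
  ev R ((Q.deg c : ℤ) - E) * act R (Q.e c)

theorem ev_comm (n : ℤ) (c : Q.Cell) : ev R n * act R (Q.e c) = act R (Q.e c) * ev R n := by
  simpa using ev_mul_act (Q.e_mem c) n

theorem idem_idem (E : ℕ) (c : Q.Cell) : Q.idem E c * Q.idem E c = Q.idem E c := by
  rw [idem]
  conv_lhs => rw [mul_assoc, ← mul_assoc (act R (Q.e c)), ← Q.ev_comm, mul_assoc, ← map_mul,
    Q.e_idem, ← mul_assoc, ev_mul_ev, if_pos rfl]

/-- The projective module of degree `E`. -/
def F (E : ℕ) : Submodule (Alg R) (Q.Idx E → Alg R) where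
  carrier := {f | ∀ c, f c * Q.idem E c = f c}
  zero_mem' _ := zero_mul _
  add_mem' hf hg c := by simp [add_mul, hf c, hg c]
  smul_mem' a f hf c := by simp [mul_assoc, hf c]

theorem mem_F {E : ℕ} {f : Q.Idx E → Alg R} : f ∈ Q.F E ↔ ∀ c, f c * Q.idem E c = f c := Iff.rfl

/-- Cutting a tuple down to `F E`. -/
noncomputable def cut (E : ℕ) : (Q.Idx E → Alg R) →ₗ[Alg R] Q.F E where
  toFun f := ⟨fun c => f c * Q.idem E c, fun c => by rw [mul_assoc, Q.idem_idem]⟩
  map_add' f g := Subtype.ext <| funext fun c => add_mul _ _ _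
  map_smul' a f := Subtype.ext <| funext fun c => mul_assoc _ _ _

theorem cut_comp (E : ℕ) : (Q.cut E).comp (Q.F E).subtype = LinearMap.id :=
  LinearMap.ext fun f => Subtype.ext <| funext fun c => f.2 c

instance (E : ℕ) : Module.Projective (Alg R) (Q.F E) :=
  Module.Projective.of_split (Q.F E).subtype (Q.cut E) (Q.cut_comp E)

instance (E : ℕ) : Module.Finite (Alg R) (Q.F E) :=
  Module.Finite.of_surjective (Q.cut E) fun f => ⟨f.1, LinearMap.congr_fun (Q.cut_comp E) f⟩

variable {U : Type} [AddCommGroup U] [Module (Alg R) U]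

/-- `φ` is a cochain of degree `E` with values in the module `U`. -/
def InDeg (E : ℕ) (φ : Q.Cell → U) : Prop :=
  ∀ c, ev R ((Q.deg c : ℤ) - E) • φ c = φ c ∧ act R (Q.e c) • φ c = φ c

theorem InDeg.eq_zero {E : ℕ} {φ : Q.Cell → U} (h : Q.InDeg E φ) {c : Q.Cell}
    (hc : ¬(E ≤ Q.deg c ∧ Q.deg c ≤ E + R.L)) : φ c = 0 := by
  rw [← (h c).1, ev_out (by omega), zero_smul]

theorem InDeg.idem_smul {E : ℕ} {φ : Q.Cell → U} (h : Q.InDeg E φ) (c : Q.Cell) :
    Q.idem E c • φ c = φ c := by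
  rw [idem, mul_smul, (h c).2, (h c).1]

/-- The map given by a cochain. -/
noncomputable def hom (E : ℕ) (φ : Q.Cell → U) : Q.F E →ₗ[Alg R] U where
  toFun f := ∑ c, f.1 c • φ c.1
  map_add' f g := by simp [add_smul, Finset.sum_add_distrib]
  map_smul' a f := by simp [mul_smul, Finset.smul_sum]

theorem hom_apply (E : ℕ) (φ : Q.Cell → U) (f : Q.F E) : Q.hom E φ f = ∑ c, f.1 c • φ c.1 := rfl

open scoped Classical in
/-- The generator of a cell. -/
noncomputable def gen (E : ℕ) (c : Q.Cell) : Q.F E :=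
  if h : E ≤ Q.deg c ∧ Q.deg c ≤ E + R.L then Q.cut E (Pi.single ⟨c, h⟩ 1) else 0

open scoped Classical in
theorem gen_apply (E : ℕ) (c : Q.Cell) (c' : Q.Idx E) :
    (Q.gen E c).1 c' = if c'.1 = c then Q.idem E c else 0 := by
  unfold gen
  split_ifs with h h' h'
  · subst h'; simp [cut]
  · simp [cut, Pi.single_eq_of_ne (show c' ≠ ⟨c, h⟩ from fun e => h' (congrArg Subtype.val e))]
  · exact absurd (h' ▸ c'.2) h
  · rfl

theorem gen_inDeg (E : ℕ) : Q.InDeg E (Q.gen E) := by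
  classical
  intro c
  constructor <;> refine Subtype.ext (funext fun c' => ?_)
  · rw [Submodule.coe_smul, Pi.smul_apply, smul_eq_mul, gen_apply]
    split_ifs
    · rw [idem, ← mul_assoc, ev_mul_ev, if_pos rfl]
    · exact mul_zero _
  · rw [Submodule.coe_smul, Pi.smul_apply, smul_eq_mul, gen_apply]
    split_ifs
    · rw [idem, ← mul_assoc, ← Q.ev_comm, mul_assoc, ← map_mul, Q.e_idem]
    · exact mul_zero _

theorem eq_sum_gen (E : ℕ) (f : Q.F E) : f = ∑ c, f.1 c • Q.gen E c.1 := by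
  classical
  refine Subtype.ext (funext fun d => ?_)
  rw [Submodule.coe_sum, Finset.sum_apply, Finset.sum_eq_single d]
  · rw [Submodule.coe_smul, Pi.smul_apply, smul_eq_mul, gen_apply, if_pos rfl, f.2 d]
  · intro c _ hc
    rw [Submodule.coe_smul, Pi.smul_apply, smul_eq_mul, gen_apply,
      if_neg (fun e => hc (Subtype.ext e).symm), mul_zero]
  · exact fun h => absurd (Finset.mem_univ d) h

theorem hom_gen {E : ℕ} {φ : Q.Cell → U} (hφ : Q.InDeg E φ) (c : Q.Cell) :
    Q.hom E φ (Q.gen E c) = φ c := by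
  classical
  rw [hom_apply]
  by_cases h : E ≤ Q.deg c ∧ Q.deg c ≤ E + R.L
  · rw [Finset.sum_eq_single ⟨c, h⟩]
    · rw [gen_apply, if_pos rfl]; exact hφ.idem_smul _ c
    · intro d _ hd
      rw [gen_apply, if_neg (fun e => hd (Subtype.ext e)), zero_smul]
    · exact fun h' => absurd (Finset.mem_univ _) h'
  · rw [hφ.eq_zero _ h]
    exact Finset.sum_eq_zero fun d _ => by
      rw [gen_apply, if_neg (fun e : d.1 = c => h (e ▸ d.2)), zero_smul]

theorem hom_gen_eq (E : ℕ) (g : Q.F E →ₗ[Alg R] U) : Q.hom E (fun c => g (Q.gen E c)) = g := by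
  refine LinearMap.ext fun f => ?_
  conv_rhs => rw [Q.eq_sum_gen E f, map_sum]
  simp [hom_apply]

theorem inDeg_comp {E : ℕ} {V : Type} [AddCommGroup V] [Module (Alg R) V] {φ : Q.Cell → U}
    (h : Q.InDeg E φ) (g : U →ₗ[Alg R] V) : Q.InDeg E (fun c => g (φ c)) := fun c =>
  ⟨by rw [← map_smul, (h c).1], by rw [← map_smul, (h c).2]⟩

/-- Cocycle condition in a module. -/
def IsCoc (φ : Q.Cell → U) : Prop :=
  ∀ c, del R • φ c = (Q.D c).sum fun c' a => act R a • φ c'

/-- Coboundary in a module. -/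
noncomputable def cobd (φ : Q.Cell → U) : Q.Cell → U :=
  fun c => sgn (Q.deg c) • (del R • φ c - (Q.D c).sum fun c' a => act R a • φ c')

theorem cobd_eq_zero {φ : Q.Cell → U} : (∀ c, Q.cobd φ c = 0) ↔ Q.IsCoc φ := by
  refine forall_congr' fun c => ⟨fun h => ?_, fun h => by rw [cobd, h, sub_self, smul_zero]⟩
  have := congrArg (sgn (Q.deg c) • ·) h
  simpa [cobd, sgn_smul_smul, sub_eq_zero] using this

theorem del_act_e (c : Q.Cell) : del R * act R (Q.e c) = act R (Q.e c) * del R := by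
  rw [del_mul_act, Q.d_e, R.J_zero (Q.e_mem c), map_zero, zero_add]

theorem ev_act_D (E : ℕ) (c c' : Q.Cell) :
    ev R ((Q.deg c : ℤ) - (E + 1)) * act R (Q.D c c') =
      act R (Q.D c c') * ev R ((Q.deg c' : ℤ) - E) := by
  rw [← ev_mul_act (Q.D_mem c c')]
  congr 2; ring

theorem cobd_inDeg {E : ℕ} {φ : Q.Cell → U} (h : Q.InDeg E φ) :
    Q.InDeg (E + 1) (Q.cobd φ) := by
  intro c
  unfold cobd
  constructor <;> rw [smul_comm] <;> congr 1 <;> rw [smul_sub, Finsupp.smul_sum] <;> congr 1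
  · rw [← mul_smul, show ((Q.deg c : ℤ) - ((E + 1 : ℕ) : ℤ)) = (Q.deg c : ℤ) - E - 1 by push_cast; ring,
      ev_mul_del, mul_smul, (h c).1]
  · refine Finsupp.sum_congr fun c' _ => ?_
    rw [← mul_smul, show ((E + 1 : ℕ) : ℤ) = (E : ℤ) + 1 by push_cast; ring, Q.ev_act_D, mul_smul,
      (h c').1]
  · rw [← mul_smul, ← Q.del_act_e, mul_smul, (h c).2]
  · exact Finsupp.sum_congr fun c' _ => by rw [← mul_smul, ← map_mul, Q.e_D]

theorem sgn_act_D (c c' : Q.Cell) :
    (sgn (Q.deg c) * sgn (Q.deg c')) • act R (Q.D c c') = - act R (R.J (Q.D c c')) := by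
  by_cases h : Q.D c c' = 0
  · simp [h]
  obtain ⟨n, hn⟩ := Nat.exists_eq_add_of_lt (Q.D_lt c c' h)
  have hm : Q.D c c' ∈ R.G n := by
    have := Q.D_mem c c'
    rwa [show (Q.deg c : ℤ) - 1 - Q.deg c' = n by omega] at this
  rw [R.J_sgn hm, map_zsmul, hn, sgn_add, sgn_add, ← neg_smul]
  congr 1
  have := sgn_mul_self (Q.deg c')
  simp only [sgn, pow_one] at *
  linear_combination (-((-1 : ℤ) ^ n)) * this

theorem cobd_cobd (φ : Q.Cell → U) (c : Q.Cell) : Q.cobd (Q.cobd φ) c = 0 := by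
  set n := Q.deg c
  have e1 : ∀ c', act R (Q.D c c') • Q.cobd φ c' = sgn n •
      (- (act R (R.J (Q.D c c')) • (del R • φ c'))
        + ∑ c'' ∈ Q.below n, act R (R.J (Q.D c c') * Q.D c' c'') • φ c'') := by
    intro c'
    by_cases h : Q.D c c' = 0
    · simp [h]
    have hlt := (Q.D_lt c c' h).le
    have hs : sgn n • (- act R (R.J (Q.D c c'))) = sgn (Q.deg c') • act R (Q.D c c') := by
      rw [← Q.sgn_act_D, smul_smul, ← mul_assoc, sgn_mul_self, one_mul]
    rw [cobd, Q.D_sum c' _ (fun _ => by simp) n hlt, smul_comm, ← smul_assoc, ← hs, smul_assoc,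
      neg_smul, smul_sub, Finset.smul_sum, neg_sub, sub_eq_neg_add]
    congr 2
    exact Finset.sum_congr rfl fun c'' _ => by rw [← mul_smul, ← map_mul]
  have e2 : del R • Q.cobd φ c = sgn n •
      (- ∑ c' ∈ Q.below n, (act R (R.d (Q.D c c')) • φ c'
        + act R (R.J (Q.D c c')) • (del R • φ c'))) := by
    rw [cobd, Q.D_sum c _ (fun _ => by simp) n le_rfl, smul_comm, smul_sub, ← mul_smul,
      del_mul_del, zero_smul, zero_sub, Finset.smul_sum]
    congr 2
    exact Finset.sum_congr rfl fun c' _ => by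
      rw [← mul_smul, del_mul_act, add_smul, mul_smul]
  have key : ∀ c'', R.d (Q.D c c'') + ∑ c' ∈ Q.below n, R.J (Q.D c c') * Q.D c' c'' = 0 := by
    intro c''
    have := Q.D_sq c c''
    rwa [Q.D_sum c _ (fun _ => by simp) n le_rfl] at this
  show sgn n • (del R • Q.cobd φ c - (Q.D c).sum fun c' a => act R a • Q.cobd φ c') = 0
  rw [Q.D_sum c _ (fun _ => by simp) n le_rfl, e2, Finset.sum_congr rfl fun c' _ => e1 c',
    ← Finset.smul_sum, ← smul_sub, sgn_smul_smul, Finset.sum_add_distrib, Finset.sum_add_distrib,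
    Finset.sum_neg_distrib, Finset.sum_comm]
  simp only [← Finset.sum_smul, ← map_sum]
  have : ∀ c'', act R (R.d (Q.D c c'')) • φ c'' =
      - (act R (∑ c' ∈ Q.below n, R.J (Q.D c c') * Q.D c' c'') • φ c'') := fun c'' => by
    rw [← neg_smul, ← map_neg, eq_neg_of_add_eq_zero_left (key c'')]
  simp only [this, Finset.sum_neg_distrib]
  abel

/-- The differential of the resolution. -/
noncomputable def bd (E : ℕ) : Q.F (E + 1) →ₗ[Alg R] Q.F E :=
  Q.hom (E + 1) (Q.cobd (Q.gen E))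

theorem comp_bd {E : ℕ} (g : Q.F E →ₗ[Alg R] U) :
    g.comp (Q.bd E) = Q.hom (E + 1) (Q.cobd fun c => g (Q.gen E c)) := by
  refine LinearMap.ext fun f => ?_
  simp [bd, hom_apply, cobd, map_sum, Finsupp.sum]

theorem bd_bd (E : ℕ) : (Q.bd E).comp (Q.bd (E + 1)) = 0 := by
  rw [Q.comp_bd]
  have h : (fun c => Q.bd E (Q.gen (E + 1) c)) = Q.cobd (Q.gen E) :=
    funext fun c => Q.hom_gen (Q.cobd_inDeg (Q.gen_inDeg E)) c
  rw [h]
  refine LinearMap.ext fun f => ?_
  rw [hom_apply]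
  simp [Q.cobd_cobd]

/-- The coordinate formula for the differential. -/
theorem bd_apply (E : ℕ) (f : Q.F (E + 1)) (c : Q.Idx E) :
    (Q.bd E f).1 c = (∑ c' : Q.Idx (E + 1), sgn (Q.deg c'.1) •
      ((open scoped Classical in if c.1 = c'.1 then f.1 c' * del R * Q.idem E c.1 else 0)
        - f.1 c' * act R (Q.D c'.1 c.1) * Q.idem E c.1)) := by
  classical
  rw [bd, hom_apply, Submodule.coe_sum, Finset.sum_apply]
  refine Finset.sum_congr rfl fun c' _ => ?_
  rw [cobd, Q.D_sum c'.1 _ (fun _ => by simp) (max (Q.deg c'.1) (Q.deg c.1 + 1)) (le_max_left _ _)]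
  rw [Submodule.coe_smul, Pi.smul_apply, smul_eq_mul, Submodule.coe_smul_of_tower,
    Submodule.coe_sub, Submodule.coe_smul, Submodule.coe_sum, Pi.smul_apply, Pi.sub_apply,
    Pi.smul_apply, Finset.sum_apply, smul_eq_mul, mul_smul_comm, mul_sub, Finset.mul_sum]
  simp only [Submodule.coe_smul, Pi.smul_apply, smul_eq_mul, gen_apply]
  rw [Finset.sum_eq_single c.1]
  · rw [if_pos rfl, mul_ite, mul_zero, mul_ite, mul_zero, ← mul_assoc, ← mul_assoc]
    congr 2
    split_ifs with h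
    · rw [h]
    · rfl
  · intro b _ hb
    rw [if_neg (fun e => hb e.symm), mul_zero, mul_zero]
  · intro h
    exact absurd (Q.mem_below.2 (lt_of_lt_of_le (Nat.lt_succ_self _) (le_max_right _ _))) h

end Cells

end P195.Window
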