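import Vale.Agent.P195.Window.Targets

/-! P195, window machine: the module `M`, resolved by the cells, and its rows. -/

namespace P195.Window

variable {k T : Type} [Field k] [Ring T] [Algebra k T] {R : DGA k T}

namespace Cells

variable (Q : Cells R)

/-- The window of the resolution. -/
abbrev M : Type := Q.F 0 ⧸ LinearMap.range (Q.bd 0)

/-- The generator of a cell in `M`. -/
noncomputable def genM (c : Q.Cell) : Q.M := (LinearMap.range (Q.bd 0)).mkQ (Q.gen 0 c)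

theorem genM_inDeg : Q.InDeg 0 Q.genM := Q.inDeg_comp (Q.gen_inDeg 0) _

theorem genM_coc : Q.IsCoc Q.genM := by
  rw [← Q.cobd_eq_zero]
  intro c
  have h : ((LinearMap.range (Q.bd 0)).mkQ).comp (Q.bd 0) = 0 :=
    LinearMap.range_mkQ_comp _
  rw [Q.comp_bd] at h
  rw [← Q.hom_gen (Q.cobd_inDeg Q.genM_inDeg) c]
  exact LinearMap.congr_fun h _

/-- The element of `M` given by a chain. -/
noncomputable def ι : (Q.Cell →₀ T) →+ Q.M :=
  Finsupp.liftAddHom fun c =>
    ((smulAddHom (Alg R) Q.M).flip (Q.genM c)).comp (act R).toLinearMap.toAddMonoidHom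

theorem ι_apply (X : Q.Cell →₀ T) : Q.ι X = X.sum fun c t => act R t • Q.genM c := rfl

theorem ι_single (c : Q.Cell) (t : T) : Q.ι (Finsupp.single c t) = act R t • Q.genM c := by
  simp [ι_apply]

theorem ι_mapRange (f : T → T) (hf : f 0 = 0) (X : Q.Cell →₀ T) :
    Q.ι (X.mapRange f hf) = X.sum fun c t => act R (f t) • Q.genM c := by
  rw [ι_apply, Finsupp.sum_mapRange_index]
  simp

theorem ev_ι {n : ℤ} {X : Q.Cell →₀ T} (hX : Q.IsChain n X) :
    ev R n • Q.ι X = Q.ι X := by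
  rw [ι_apply, Finsupp.smul_sum]
  refine Finsupp.sum_congr fun c _ => ?_
  rw [← mul_smul]
  have := ev_mul_act (hX c).1 ((Q.deg c : ℤ) - (0 : ℕ))
  rw [show (Q.deg c : ℤ) - (0 : ℕ) + (n - Q.deg c) = n by simp] at this
  rw [this, mul_smul, (Q.genM_inDeg c).1]

theorem del_ι (X : Q.Cell →₀ T) : del R • Q.ι X = Q.ι (Q.dQ X) := by
  rw [dQ, map_add, map_finsuppSum, Q.ι_mapRange R.d, ι_apply, Finsupp.smul_sum, Finsupp.sum,
    Finsupp.sum, Finsupp.sum, ← Finset.sum_add_distrib]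
  refine Finset.sum_congr rfl fun c _ => ?_
  rw [← mul_smul, del_mul_act, add_smul, mul_smul, Q.genM_coc c, Q.ι_mapRange, Finsupp.smul_sum]
  congr 1
  exact Finsupp.sum_congr fun c' _ => by rw [← mul_smul, ← map_mul]

theorem dQ_add (x y : Q.Cell →₀ T) : Q.dQ (x + y) = Q.dQ x + Q.dQ y := by
  classical
  ext c
  simp only [Q.dQ_apply, Finsupp.add_apply, map_add]
  rw [Finsupp.sum_add_index' (by simp) (by simp [add_mul])]
  abel

theorem isChain_add {n : ℤ} {x y : Q.Cell →₀ T} (hx : Q.IsChain n x) (hy : Q.IsChain n y) :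
    Q.IsChain n (x + y) := fun c =>
  ⟨add_mem (hx c).1 (hy c).1, by simp [add_mul, (hx c).2, (hy c).2]⟩

theorem isChain_zero (n : ℤ) : Q.IsChain n 0 := fun c => by simp

theorem isChain_sum {n : ℤ} {ι' : Type*} (s : Finset ι') (f : ι' → Q.Cell →₀ T)
    (h : ∀ i ∈ s, Q.IsChain n (f i)) : Q.IsChain n (∑ i ∈ s, f i) :=
  Finset.sum_induction _ (Q.IsChain n) (fun _ _ => Q.isChain_add) (Q.isChain_zero n) h

theorem elem_eq {a : Alg R} {j i : Pos R} (hj : ev R ((j : ℕ) : ℤ) * a = a)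
    (hi : a * ev R ((i : ℕ) : ℤ) = a) :
    a = act R (cx j i a) * ev R ((i : ℕ) : ℤ) + act R (cy j i a) * del R * ev R ((i : ℕ) : ℤ) := by
  have h0 : ∀ b b' : Pos R, (b ≠ j ∨ b' ≠ i) → cx b b' a = 0 ∧ cy b b' a = 0 := by
    rintro b b' (h | h)
    · have : ¬ ((b : ℕ) : ℤ) = (j : ℕ) := fun e => h (Fin.ext (by omega))
      rw [← hj]; simp only [(cx_ev_mul _ _ _ _).1, (cx_ev_mul _ _ _ _).2, if_neg this, and_self]
    · have : ¬ ((b' : ℕ) : ℤ) = (i : ℕ) := fun e => h (Fin.ext (by omega))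
      rw [← hi]; simp only [(cx_mul_ev _ _ _ _).1, (cx_mul_ev _ _ _ _).2, if_neg this, and_self]
  refine alg_ext (fun b b' => ?_) fun b b' => ?_
  all_goals
    rw [map_add]
    simp only [(cx_mul_ev _ _ _ _).1, (cx_mul_ev _ _ _ _).2]
    by_cases hb' : b' = i
    swap
    · have : ¬ ((b' : ℕ) : ℤ) = (i : ℕ) := fun e => hb' (Fin.ext (by omega))
      simp [this, h0 b b' (.inr hb')]
    subst hb'
    simp only [if_true, (cx_act _ _ _).1, (cx_act _ _ _).2, R.pr_of_mem (cx_mem j b' a)]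
    by_cases hi0 : (b' : ℕ) = 0
    · simp only [(cx_mul_del_zero _ _ _ hi0).1, (cx_mul_del_zero _ _ _ hi0).2, add_zero]
      by_cases hb : b = j
      · subst hb; simp [cy_eq_zero b b' (.inr hi0)]
      · simp [h0 b b' (.inl hb), show ¬ (((b : ℕ) : ℤ) - (b' : ℕ) = (j : ℕ) - (b' : ℕ)) from
          fun e => hb (Fin.ext (by omega))]
    · obtain ⟨e1, e2⟩ := cx_mul_del (act R (cy j b' a)) b b' ⟨b' - 1, by omega⟩ (by simp; omega)
      rw [(cx_act _ _ _).1, R.pr_of_mem (cy_mem j b' a)] at e1 e2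
      simp only [e1, e2]
      by_cases hb : b = j
      · subst hb
        by_cases hbL : (b : ℕ) = R.L
        · simp [hbL, cy_eq_zero b b' (.inl hbL)]
        · have he : ((b : ℕ) : ℤ) - (((b' : ℕ) - 1 : ℕ) : ℤ) = (b : ℕ) - (b' : ℕ) + 1 := by omega
          simp [hbL, he]
      · have : ¬ (((b : ℕ) : ℤ) - ((b' - 1 : ℕ) : ℤ) = (j : ℕ) - (b' : ℕ) + 1) :=
          fun e => hb (Fin.ext (by omega))
        simp [h0 b b' (.inl hb), this, show ¬ (((b : ℕ) : ℤ) - (b' : ℕ) = (j : ℕ) - (b' : ℕ)) from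
          fun e => hb (Fin.ext (by omega))]

theorem exists_chain {n : ℕ} (hn : n ≤ R.L) {z : Q.M} (hz : ev R (n : ℤ) • z = z) :
    ∃ X, Q.IsChain n X ∧ Q.ι X = z := by
  classical
  obtain ⟨f, hf⟩ := (LinearMap.range (Q.bd 0)).mkQ_surjective z
  have hz' : z = ∑ c : Q.Idx 0, (ev R (n : ℤ) * f.1 c) • Q.genM c.1 := by
    rw [← hz, ← hf]
    conv_lhs => rw [Q.eq_sum_gen 0 f, map_sum, Finset.smul_sum]
    exact Finset.sum_congr rfl fun c _ => by rw [map_smul, ← mul_smul]; rfl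
  let j : Pos R := ⟨n, by omega⟩
  let x : Q.Idx 0 → T := fun c => cx j (Q.pos c) (ev R (n : ℤ) * f.1 c)
  let y : Q.Idx 0 → T := fun c => cy j (Q.pos c) (ev R (n : ℤ) * f.1 c)
  refine ⟨∑ c : Q.Idx 0, (Finsupp.single c.1 (x c) + (Q.D c.1).mapRange (y c * ·) (mul_zero _)),
    Q.isChain_sum _ _ fun c _ => ?_, ?_⟩
  · have hmem : ev R (n : ℤ) * f.1 c * Q.idem 0 c.1 = ev R (n : ℤ) * f.1 c := by
      rw [mul_assoc, f.2 c]
    obtain ⟨e1, e2⟩ := Q.cx_mul_idem (ev R (n : ℤ) * f.1 c) c j (Q.pos c)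
    rw [hmem, if_pos rfl] at e1 e2
    have hp : ((Q.pos c : Pos R) : ℕ) = Q.deg c.1 := by simp [pos]
    refine Q.isChain_add (fun d => ?_) fun d => ⟨?_, ?_⟩
    · rw [Finsupp.single_apply]
      split_ifs with h
      · subst h
        refine ⟨?_, e1.symm⟩
        simpa [j, hp] using cx_mem j (Q.pos c) (ev R (n : ℤ) * f.1 c)
      · simp
    · rw [Finsupp.mapRange_apply]
      refine R.mul_G' (cy_mem j (Q.pos c) _) (Q.D_mem c.1 d) ?_
      simp only [j, hp]; ring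
    · rw [Finsupp.mapRange_apply, mul_assoc, Q.D_e]
  · rw [map_sum, hz']
    refine Finset.sum_congr rfl fun c _ => ?_
    rw [map_add, ι_single, Q.ι_mapRange]
    have hsum : ((Q.D c.1).sum fun c' t => act R (y c * t) • Q.genM c') =
        act R (y c) • (del R • Q.genM c.1) := by
      rw [Q.genM_coc c.1, Finsupp.smul_sum]
      exact Finsupp.sum_congr fun c' _ => by rw [← mul_smul, ← map_mul]
    have hev : ev R (((Q.pos c : Pos R) : ℕ) : ℤ) • Q.genM c.1 = Q.genM c.1 := by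
      rw [Q.pos_cast c]; exact (Q.genM_inDeg c.1).1
    rw [hsum]
    conv_rhs => rw [elem_eq (a := ev R (n : ℤ) * f.1 c) (j := j) (i := Q.pos c)
      (by rw [← mul_assoc, ev_mul_ev, if_pos rfl])
      (by
        rw [mul_assoc]
        conv_lhs => rw [← f.2 c, mul_assoc]
        congr 1
        conv_rhs => rw [← f.2 c]
        congr 1
        rw [Q.pos_cast c, idem, mul_assoc, ← Q.ev_comm, ← mul_assoc, ev_mul_ev, if_pos rfl])]
    rw [add_smul, mul_smul, mul_smul, mul_smul, hev]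

theorem ι_injective {n : ℤ} (hn : n < R.L) {X : Q.Cell →₀ T} (hX : Q.IsChain n X)
    (h0 : Q.ι X = 0) : X = 0 := by
  classical
  by_cases hn0 : n < 0
  · ext c; exact R.G_eq_bot (.inl (by omega)) (hX c).1
  obtain ⟨m, rfl⟩ := Int.eq_ofNat_of_zero_le (by omega : 0 ≤ n)
  let j : Pos R := ⟨m, by omega⟩
  have hj : (j : ℕ) ≠ R.L := by simp [j]; omega
  let f : Q.F 0 := ∑ c : Q.Idx 0, act R (X c.1) • Q.gen 0 c.1
  have hsupp : ∀ c, X c ≠ 0 → Q.deg c ≤ 0 + R.L := by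
    intro c hc
    by_contra h
    exact hc (hX.apply_eq_zero _ (by omega))
  have hf : f ∈ LinearMap.range (Q.bd 0) := by
    rw [← Submodule.ker_mkQ (LinearMap.range (Q.bd 0)), LinearMap.mem_ker, ← h0, map_sum, ι_apply,
      Finsupp.sum]
    refine Finset.sum_bij_ne_zero (fun c _ _ => c.1) (fun c _ hne => ?_) (fun a _ _ b _ _ h => Subtype.ext h)
      (fun b hb _ => ⟨⟨b, Nat.zero_le _, hsupp b (Finsupp.mem_support_iff.1 hb)⟩, Finset.mem_univ _, ?_, rfl⟩)
      fun c _ _ => by rw [map_smul]; rfl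
    · rw [Finsupp.mem_support_iff]
      intro h; exact hne (by rw [h, map_zero, zero_smul, map_zero])
    · rw [map_smul]; assumption
  have hfc : ∀ c : Q.Idx 0, f.1 c = act R (X c.1) * Q.idem 0 c.1 := by
    intro c
    simp only [f, Submodule.coe_sum, Finset.sum_apply]
    rw [Finset.sum_eq_single c]
    · rw [Submodule.coe_smul, Pi.smul_apply, smul_eq_mul, gen_apply, if_pos rfl]
    · intro b _ hb
      rw [Submodule.coe_smul, Pi.smul_apply, smul_eq_mul, gen_apply,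
        if_neg (fun e => hb (Subtype.ext e).symm), mul_zero]
    · exact fun h => absurd (Finset.mem_univ c) h
  have hfx : ∀ c : Q.Idx 0, Q.fx f j c = X c.1 ∧ Q.fy f j c = 0 := by
    intro c
    obtain ⟨e1, e2⟩ := Q.cx_mul_idem (act R (X c.1)) c j (Q.pos c)
    rw [fx, fy, hfc, e1, e2, if_pos rfl, if_pos rfl, (cx_act _ _ _).1, (cx_act _ _ _).2, zero_mul,
      R.pr_of_mem (hX c.1).1, if_pos (by rw [Q.pos_cast c]; simp [j]), (hX c.1).2]
    exact ⟨rfl, rfl⟩
  obtain ⟨g, hg⟩ := hf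
  ext d
  rw [Finsupp.zero_apply]
  by_contra hd
  let c : Q.Idx 0 := ⟨d, Nat.zero_le _, hsupp d hd⟩
  apply hd
  have P : Q.fx (Q.bd 0 g) j c + ∑ c' : Q.Idx 0, Q.fy (Q.bd 0 g) j c' * Q.D c'.1 c.1 = 0 := by
    have hy : ∀ c' : Q.Idx 0, Q.fy (Q.bd 0 g) j c' * Q.D c'.1 c.1 =
        ∑ c'' : Q.Idx (0 + 1), sgn (Q.deg c''.1) •
          ((if c'.1 = c''.1 then Q.fx g j c'' * Q.D c'.1 c.1 else 0)
            - Q.fy g j c'' * (R.J (Q.D c''.1 c'.1) * Q.D c'.1 c.1)) := by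
      intro c'
      rw [Q.fy_bd, Finset.sum_mul]
      refine Finset.sum_congr rfl fun c'' _ => ?_
      rw [smul_mul_assoc, if_neg hj, sub_mul, ite_mul, zero_mul, ite_mul, zero_mul, mul_assoc]
      by_cases h : Q.deg c'.1 = 0
      · have : Q.D c'.1 c.1 = 0 := Q.D_eq_zero (by omega)
        simp [this, h]
      · rw [if_neg h]
    simp only [hy]
    rw [Finset.sum_comm, Q.fx_bd, ← Finset.sum_add_distrib]
    refine Finset.sum_eq_zero fun c'' _ => ?_
    rw [← Finset.smul_sum, ← smul_add, Finset.sum_sub_distrib, ← Finset.mul_sum, if_neg hj, ite_self,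
      zero_sub]
    have h1 : (∑ c' : Q.Idx 0, if c'.1 = c''.1 then Q.fx g j c'' * Q.D c'.1 c.1 else 0) =
        Q.fx g j c'' * Q.D c''.1 c.1 := by
      by_cases hh : Q.deg c''.1 ≤ 0 + R.L
      · rw [Finset.sum_eq_single (⟨c''.1, Nat.zero_le _, hh⟩ : Q.Idx 0)]
        · rw [if_pos rfl]
        · intro b _ hb; exact if_neg fun e => hb (Subtype.ext e)
        · exact fun h => absurd (Finset.mem_univ _) h
      · have : Q.fx g j c'' = 0 :=
          R.G_eq_bot (.inl (by simp [j]; omega)) (Q.fx_mem g j c'')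
        simp [this]
    have h2 : ∑ c' : Q.Idx 0, R.J (Q.D c''.1 c'.1) * Q.D c'.1 c.1 = - R.d (Q.D c''.1 c.1) := by
      have hsq := Q.D_sq c''.1 c.1
      rw [Q.D_sum c''.1 _ (fun _ => by simp) (Q.deg c''.1) le_rfl] at hsq
      rw [← eq_neg_of_add_eq_zero_right hsq]
      refine Finset.sum_bij_ne_zero (fun c' _ _ => c'.1) (fun c' _ hne => ?_)
        (fun a _ _ b _ _ h => Subtype.ext h) (fun b hb _ => ?_) fun _ _ _ => rfl
      · rw [Q.mem_below]
        by_contra h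
        exact hne (by rw [Q.D_eq_zero (by omega), map_zero, zero_mul])
      · have := c''.2
        rw [Q.mem_below] at hb
        exact ⟨⟨b, Nat.zero_le _, by omega⟩, Finset.mem_univ _, ‹_›, rfl⟩
    rw [h1, h2, mul_neg]
    convert smul_zero (sgn (Q.deg c''.1))
    abel
  have hz : ∑ c' : Q.Idx 0, Q.fy f j c' * Q.D c'.1 c.1 = 0 :=
    Finset.sum_eq_zero fun c' _ => by rw [(hfx c').2, zero_mul]
  rw [hg, hz, add_zero, (hfx c).1] at P
  exact P

end Cells

end P195.Window
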