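import Vale.Agent.P195.Window.Mods

/-! P195, window machine: the algebra itself and the targets as modules over the window algebra. -/

namespace P195.Window

variable {k T : Type} [Field k] [Ring T] [Algebra k T] {R : DGA k T}

/-- The comparison between a target and a module over the window algebra. -/
structure Model {V : Type} [AddCommGroup V] [Module k V] [Module T V] (S : Target R V)
    (U : Type) [AddCommGroup U] [Module (Alg R) U] where
  ι : V →+ U
  inj : Function.Injective ι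
  map_smul : ∀ (a : T) (v : V), ι (a • v) = act R a • ι v
  map_d : ∀ v, ι (S.d v) = del R • ι v
  map_deg : ∀ (n : ℤ) v, v ∈ S.G n → ev R n • ι v = ι v
  lift : ∀ (n : ℤ) z, ev R n • z = z → ∃ v ∈ S.G n, ι v = z

section Model

variable {V : Type} [AddCommGroup V] [Module k V] [Module T V] {S : Target R V}
  {U : Type} [AddCommGroup U] [Module (Alg R) U] (W : Model S U) (Q : Cells R)

theorem Model.cobd_ι (ψ : Q.Cell → V) (c : Q.Cell) :
    Q.cobd (fun c => W.ι (ψ c)) c = W.ι (Q.delta S ψ c) := by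
  rw [Cells.delta, sgn_smul_eq, map_zsmul, map_sub, W.map_d, map_finsuppSum, Cells.cobd]
  simp only [W.map_smul]

theorem Model.coc_ι (φ : Q.Cell → V) : Q.IsCoc (fun c => W.ι (φ c)) ↔ Q.IsCocycle S φ := by
  refine forall_congr' fun c => ?_
  rw [← W.map_d, ← W.inj.eq_iff, map_finsuppSum]
  simp only [W.map_smul]

theorem Model.inDeg_ι {n : ℕ} {φ : Q.Cell → V} (h : Q.IsCochain S (n : ℤ) φ) :
    Q.InDeg n (fun c => W.ι (φ c)) := fun c =>
  ⟨W.map_deg _ _ (h c).1, by rw [← W.map_smul, (h c).2]⟩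

theorem Model.exists_cochain {n : ℕ} {φ : Q.Cell → U} (h : Q.InDeg n φ) :
    ∃ φ' : Q.Cell → V, Q.IsCochain S (n : ℤ) φ' ∧ (fun c => W.ι (φ' c)) = φ := by
  choose v hv hv' using fun c => W.lift _ _ (h c).1
  exact ⟨v, fun c => ⟨hv c, W.inj (by rw [W.map_smul, hv', (h c).2])⟩, funext hv'⟩

theorem Model.exactMod (W : Model S U) {n : ℕ} (hS : Q.ExactAt S ((n : ℤ) + 1)) : Q.ExactMod U n := by
  intro φ hφ hc
  obtain ⟨φ', hφ', rfl⟩ := W.exists_cochain Q hφ
  obtain ⟨ψ, hψ, hd⟩ := hS φ' (by exact_mod_cast hφ') ((W.coc_ι Q φ').1 hc)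
  exact ⟨fun c => W.ι (ψ c), W.inDeg_ι Q (by simpa using hψ),
    funext fun c => by rw [W.cobd_ι, hd]⟩

theorem Model.exactAt (W : Model S U) {n : ℕ} (hU : Q.ExactMod U n) : Q.ExactAt S ((n : ℤ) + 1) := by
  intro φ hφ hc
  obtain ⟨ψ, hψ, hd⟩ := hU _ (W.inDeg_ι Q (by exact_mod_cast hφ)) ((W.coc_ι Q φ).2 hc)
  obtain ⟨ψ', hψ', rfl⟩ := W.exists_cochain Q hψ
  exact ⟨ψ', by simpa using hψ', funext fun c => W.inj (by rw [← W.cobd_ι Q ψ' c, hd])⟩

end Model

variable (R) in
/-- The modules `A e_n`. -/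
def Col (n : ℤ) : Submodule (Alg R) (Alg R) where
  carrier := {a | a * ev R n = a}
  zero_mem' := zero_mul _
  add_mem' {a b} ha hb := by show (a + b) * _ = _; rw [add_mul, ha, hb]
  smul_mem' r a ha := by show r * a * _ = r * a; rw [mul_assoc, ha]

theorem Col.mem {n : ℤ} {a : Alg R} : a ∈ Col R n ↔ a * ev R n = a := Iff.rfl

theorem Col.mul_ev (n : ℤ) (a : Alg R) : a * ev R n ∈ Col R n := by
  rw [Col.mem, mul_assoc, ev_mul_ev, if_pos rfl]

theorem cx_act (t : T) (j i : Pos R) :
    cx j i (act R t) = R.pr ((j : ℕ) - (i : ℕ)) t ∧ cy j i (act R t) = 0 := by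
  rw [act_eq, cx_mk, cy_mk]
  constructor
  · by_cases h : (j : ℕ) = R.L
    · rw [rawX_last h, actM_apply]; simp
    · rw [rawX_lt h, actM_apply]
  · by_cases h : (j : ℕ) = R.L ∨ (i : ℕ) = 0
    · rw [rawY_zero h]
    · push Not at h
      rw [rawY_of h.1 h.2, actM_apply]

/-- The element of the first column given by an element of `T`. -/
noncomputable def col0 : T →+ Col R 0 where
  toFun t := ⟨act R t * ev R 0, Col.mul_ev 0 _⟩
  map_zero' := Subtype.ext (by simp)
  map_add' s t := Subtype.ext (by simp [add_mul])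

theorem coe_col0 (t : T) : ((col0 (R := R) t : Col R 0) : Alg R) = act R t * ev R 0 := rfl

/-- `T` is the first column. -/
noncomputable def selfModel : Model (Target.self R) (Col R 0) where
  ι := col0
  inj s t h := by
    have key : ∀ (j : Pos R), R.pr ((j : ℕ) : ℤ) s = R.pr ((j : ℕ) : ℤ) t := by
      intro j
      have := congrArg (fun z : Col R 0 => cx j 0 (z : Alg R)) h
      simp only [coe_col0, (cx_mul_ev _ _ _ _).1, (cx_act _ _ _).1] at this
      simpa using this
    rw [← R.sum_pr s, ← R.sum_pr t]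
    refine Finset.sum_congr rfl fun n hn => ?_
    rw [Finset.mem_range] at hn
    exact key ⟨n, by simp [DGA.L]; omega⟩
  map_smul a v := Subtype.ext <| by
    rw [Submodule.coe_smul, coe_col0, coe_col0, smul_eq_mul, smul_eq_mul, map_mul, mul_assoc]
  map_d v := Subtype.ext <| by
    rw [Submodule.coe_smul, coe_col0, coe_col0, smul_eq_mul, ← mul_assoc, del_mul_act, add_mul,
      mul_assoc (act R (R.J v)), ← ev_mul_del, ev_out (n := (0 : ℤ) - 1) (.inl (by omega)),
      zero_mul, mul_zero, add_zero]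
    rfl
  map_deg n v hv := Subtype.ext <| by
    rw [Submodule.coe_smul, coe_col0, smul_eq_mul, ← mul_assoc]
    have := ev_mul_act (show v ∈ R.G n from hv) 0
    rw [zero_add] at this
    rw [this, mul_assoc, ev_mul_ev, if_pos rfl]
  lift n z hz := by
    by_cases hn : 0 ≤ n ∧ n ≤ (R.L : ℤ)
    · obtain ⟨m, rfl⟩ := Int.eq_ofNat_of_zero_le hn.1
      let j : Pos R := ⟨m, by omega⟩
      refine ⟨cx j 0 (z : Alg R), ?_, Subtype.ext (alg_ext (fun a b => ?_) fun a b => ?_)⟩
      · show cx j 0 (z : Alg R) ∈ R.G (m : ℤ)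
        simpa [j] using cx_mem j 0 (z : Alg R)
      all_goals
        rw [coe_col0]
        conv_rhs => rw [← z.2, ← hz, Submodule.coe_smul, smul_eq_mul]
        by_cases hb : b = 0
        · subst hb
          simp only [(cx_mul_ev _ _ _ _).1, (cx_mul_ev _ _ _ _).2, (cx_ev_mul _ _ _ _).1,
            (cx_ev_mul _ _ _ _).2, (cx_act _ _ _).1, (cx_act _ _ _).2,
            cy_eq_zero a (0 : Pos R) (.inr (by simp)), R.pr_of_mem (cx_mem j (0 : Pos R) (z : Alg R))]
          by_cases ha : a = j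
          · subst ha; simp [j]
          · have : ¬ ((a : ℕ) : ℤ) = (m : ℤ) := fun e => ha (Fin.ext (by exact_mod_cast e))
            simp [j, this]
        · have : ¬ ((b : ℕ) : ℤ) = 0 := fun e => hb (Fin.ext (by simpa using e))
          simp only [(cx_mul_ev _ _ _ _).1, (cx_mul_ev _ _ _ _).2, if_neg this]
    · refine ⟨0, zero_mem _, ?_⟩
      rw [← hz, ev_out (by omega), zero_smul, map_zero]

theorem col_exact {i : ℕ} (hi : 0 < i) (hiL : i ≤ R.L) (n : ℕ) (z : Col R (i : ℤ))
    (hz : ev R (n : ℤ) • z = z) (hd : del R • z = 0) :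
    ∃ y : Col R (i : ℤ), ev R ((n : ℤ) + 1) • y = y ∧ del R • y = z := by
  by_cases hnL : R.L < n
  · exact ⟨0, smul_zero _, by rw [← hz, ev_out (by omega), zero_smul, smul_zero]⟩
  let pi : Pos R := ⟨i, by omega⟩
  let pn : Pos R := ⟨n, by omega⟩
  let a : Alg R := z
  have ha : ev R (n : ℤ) * a = a := congrArg Subtype.val hz
  have hai : a * ev R (i : ℤ) = a := z.2
  have hxi : ∀ b b' : Pos R, cx b b' a = (if b = pn ∧ b' = pi then cx pn pi a else 0) ∧
      cy b b' a = (if b = pn ∧ b' = pi then cy pn pi a else 0) := by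
    intro b b'
    by_cases h : b = pn ∧ b' = pi
    · obtain ⟨rfl, rfl⟩ := h; simp
    · rw [if_neg h, if_neg h]
      rcases not_and_or.1 h with h | h
      · have : ¬ ((b : ℕ) : ℤ) = (n : ℤ) := fun e => h (Fin.ext (by simpa [pn] using e))
        rw [← ha]; simp [(cx_ev_mul _ _ _ _).1, (cx_ev_mul _ _ _ _).2, this]
      · have : ¬ ((b' : ℕ) : ℤ) = (i : ℤ) := fun e => h (Fin.ext (by simpa [pi] using e))
        rw [← hai]; simp [(cx_mul_ev _ _ _ _).1, (cx_mul_ev _ _ _ _).2, this]
  -- the cycle condition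
  have hJ : 0 < n → R.J (cx pn pi a) + R.d (cy pn pi a) = 0 := by
    intro hn
    have := congrArg (fun w : Col R (i : ℤ) => cy ⟨n - 1, by omega⟩ pi (w : Alg R)) hd
    simp only [Submodule.coe_smul, smul_eq_mul, ZeroMemClass.coe_zero, map_zero] at this
    rw [(cx_del_mul a _ pi pn (by simp [pn]; omega)).2, if_neg (by simp [pi]; omega)] at this
    exact this
  have hx : cx pn pi a = R.d (R.J (cy pn pi a)) := by
    by_cases hn : 0 < n
    · have := congrArg R.J (hJ hn)
      rw [map_add, R.J_J, map_zero, R.J_d] at this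
      exact sub_eq_zero.1 (by rw [sub_eq_add_neg]; exact this)
    · rw [R.G_eq_bot (.inl (by simp [pn, pi]; omega)) (cx_mem pn pi a),
        R.G_eq_bot (.inl (by simp [pn, pi]; omega)) (R.d_G (R.J_G (cy_mem pn pi a)))]
  by_cases hn : n = R.L
  · refine ⟨0, smul_zero _, ?_⟩
    rw [smul_zero]
    refine (Subtype.ext (alg_ext (fun b b' => ?_) fun b b' => ?_)).symm
    · rw [show ((z : Col R (i : ℤ)) : Alg R) = a from rfl, (hxi b b').1, hx,
        cy_eq_zero pn pi (.inl (by simp [pn, hn]))]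
      simp
    · rw [show ((z : Col R (i : ℤ)) : Alg R) = a from rfl, (hxi b b').2,
        cy_eq_zero pn pi (.inl (by simp [pn, hn]))]
      simp
  let pm : Pos R := ⟨n + 1, by omega⟩
  have hmem : R.J (cy pn pi a) ∈ R.G ((pm : ℕ) - (pi : ℕ)) := by
    convert R.J_G (cy_mem pn pi a) using 2
    simp [pm, pn, pi]; ring
  let u : Alg R := ev R ((n : ℤ) + 1) * el R pm pi (R.J (cy pn pi a)) 0 * ev R (i : ℤ)
  refine ⟨⟨u, Col.mul_ev _ _⟩, Subtype.ext ?_, Subtype.ext ?_⟩
  · show ev R ((n : ℤ) + 1) * u = u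
    simp only [u, ← mul_assoc, ev_mul_ev, if_pos]
  · show del R * u = a
    have hu : ∀ b b' : Pos R, cx b b' u = (if b = pm ∧ b' = pi then R.J (cy pn pi a) else 0) ∧
        cy b b' u = 0 := by
      intro b b'
      by_cases h : b = pm ∧ b' = pi
      · obtain ⟨rfl, rfl⟩ := h
        obtain ⟨e1, e2⟩ := cx_el pm pi hmem (zero_mem _)
        have hpm : ((pm : ℕ) : ℤ) = (n : ℤ) + 1 := by simp [pm]
        have hpi : ((pi : ℕ) : ℤ) = (i : ℤ) := by simp [pi]
        simp [u, (cx_mul_ev _ _ _ _).1, (cx_mul_ev _ _ _ _).2, (cx_ev_mul _ _ _ _).1,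
          (cx_ev_mul _ _ _ _).2, e1, e2, hpm, hpi]
      · obtain ⟨e1, e2⟩ := cx_el_ne pm pi b b' (R.J (cy pn pi a)) 0 (fun e => h ⟨e.1.symm, e.2.symm⟩)
        simp [u, (cx_mul_ev _ _ _ _).1, (cx_mul_ev _ _ _ _).2, (cx_ev_mul _ _ _ _).1,
          (cx_ev_mul _ _ _ _).2, e1, e2, h]
    refine alg_ext (fun b b' => ?_) fun b b' => ?_ <;> by_cases hb : (b : ℕ) < R.L
    · rw [(cx_del_mul u b b' ⟨b + 1, by omega⟩ rfl).1, (hu _ _).1, (hxi b b').1, hx]
      by_cases h : b = pn ∧ b' = pi
      · rw [if_pos h, if_pos ⟨Fin.ext (by simp [pm, h.1, pn]), h.2⟩]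
      · rw [if_neg h, if_neg (fun e => h ⟨Fin.ext (by simpa [pm, pn, Fin.ext_iff] using e.1), e.2⟩),
          map_zero]
    · rw [del, ← (mk_surjective u).choose_spec, ← map_mul, cx_mk,
        (raw_zero (delM_mul_apply_last _ b b' (by omega))).1, (hxi b b').1,
        if_neg (fun e => hn (by simp [Fin.ext_iff, pn] at e; omega))]
    · rw [(cx_del_mul u b b' ⟨b + 1, by omega⟩ rfl).2, (hu _ _).1, (hu _ _).2, (hxi b b').2]
      by_cases h : b = pn ∧ b' = pi
      · have h1 : (⟨(b : ℕ) + 1, by omega⟩ : Pos R) = pm ∧ b' = pi :=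
          ⟨Fin.ext (by simp [pm, h.1, pn]), h.2⟩
        have h2 : ¬ ((b' : ℕ) = 0) := by simp [h.2, pi]; omega
        rw [if_pos h, if_pos h1, if_neg h2, R.J_J, map_zero, add_zero]
      · rw [if_neg h, if_neg (fun e : _ ∧ _ => h ⟨Fin.ext (by simpa [pm, pn, Fin.ext_iff] using e.1), e.2⟩)]
        simp
    · rw [cy_eq_zero b b' (.inl (by omega)), (hxi b b').2,
        if_neg (fun e => hn (by simp [Fin.ext_iff, pn] at e; omega))]

theorem exactMod_self (Q : Cells R) {n : ℕ} (hT : Q.ExactAt (Target.self R) ((n : ℤ) + 1)) :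
    Q.ExactMod (Alg R) n := by
  classical
  intro φ hφ hc
  have key : ∀ i : ℕ, i ≤ R.L → ∃ ψ : Q.Cell → Col R (i : ℤ), Q.InDeg n ψ ∧
      ∀ c, (Q.cobd ψ c).1 = φ c * ev R (i : ℤ) := by
    intro i hi
    let φi : Q.Cell → Col R (i : ℤ) := fun c => ⟨φ c * ev R (i : ℤ), Col.mul_ev _ _⟩
    have h1 : Q.InDeg (n + 1) φi := fun c =>
      ⟨Subtype.ext (show _ * (φ c * _) = φ c * _ by
        rw [← mul_assoc, show ev R ((Q.deg c : ℤ) - ((n + 1 : ℕ) : ℤ)) * φ c = φ c from (hφ c).1]),
        Subtype.ext (show _ * (φ c * _) = φ c * _ by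
        rw [← mul_assoc, show act R (Q.e c) * φ c = φ c from (hφ c).2])⟩
    have h2 : Q.IsCoc φi := fun c => Subtype.ext <| by
      show del R * (φ c * _) = _
      rw [← mul_assoc, show del R * φ c = (Q.D c).sum fun c' a => act R a • φ c' from hc c,
        Finsupp.sum, Finsupp.sum, Submodule.coe_sum,
        Finset.sum_mul]
      exact Finset.sum_congr rfl fun c' _ => by
        show act R _ * φ c' * _ = act R _ * (φ c' * _)
        rw [mul_assoc]
    suffices ∃ ψ : Q.Cell → Col R (i : ℤ), Q.InDeg n ψ ∧ Q.cobd ψ = φi by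
      obtain ⟨ψ, hψ, hd⟩ := this
      exact ⟨ψ, hψ, fun c => by rw [hd]⟩
    rcases Nat.eq_zero_or_pos i with rfl | hi0
    · exact (selfModel (R := R)).exactMod Q hT φi h1 h2
    · refine Q.exact_of_bottom (fun m _ z => col_exact hi0 hi m z) h1 h2 fun c hdeg => ?_
      have hrow : ev R ((0 : ℕ) : ℤ) • φi c = φi c := by
        have := (h1 c).1
        rwa [show ((Q.deg c : ℤ) - ((n + 1 : ℕ) : ℤ)) = ((0 : ℕ) : ℤ) by omega] at this
      obtain ⟨y, hy, hd⟩ := col_exact hi0 hi 0 (φi c) hrow (by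
        rw [← hrow, ← mul_smul, ← ev_mul_del, ev_out (.inl (by omega)), zero_mul, zero_smul])
      exact ⟨y, by simpa using hy, hd⟩
  choose ψ hψ hd using key
  refine ⟨fun c => ∑ i : Fin (R.L + 1), (ψ i (by omega) c : Alg R), fun c => ⟨?_, ?_⟩, funext fun c => ?_⟩
  · rw [Finset.smul_sum]
    exact Finset.sum_congr rfl fun i _ => congrArg Subtype.val (hψ i (by omega) c).1
  · rw [Finset.smul_sum]
    exact Finset.sum_congr rfl fun i _ => congrArg Subtype.val (hψ i (by omega) c).2
  · have e : Q.cobd (fun c => ∑ i : Fin (R.L + 1), (ψ i (by omega) c : Alg R)) c =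
        ∑ i : Fin (R.L + 1), (Q.cobd (ψ i (by omega)) c).1 := by
      simp only [Cells.cobd, Submodule.coe_smul_of_tower, Submodule.coe_sub, Submodule.coe_smul,
        Finsupp.sum, Submodule.coe_sum, Finset.smul_sum, ← Finset.sum_sub_distrib]
      rw [Finset.sum_comm, ← Finset.sum_sub_distrib, Finset.smul_sum]
    rw [e]
    simp only [hd]
    rw [← Finset.mul_sum, Fin.sum_univ_eq_sum_range (fun m => ev R (m : ℤ)), sum_ev, mul_one]

/-- The ring map behind a target concentrated in degree `0`. -/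
noncomputable def act00 {V : Type} [AddCommGroup V] [Module k V] [Module T V] (S : Target R V)
    (h0 : ∀ n : ℤ, n ≠ 0 → S.G n = ⊥) (htop : S.G 0 = ⊤) : Alg R →+* AddMonoid.End V where
  toFun a := DistribSMul.toAddMonoidHom V (cx 0 0 a)
  map_zero' := by ext v; show cx 0 0 (0 : Alg R) • v = 0; simp
  map_add' a b := by
    ext v
    show cx 0 0 (a + b) • v = cx 0 0 a • v + cx 0 0 b • v
    simp [add_smul]
  map_one' := by
    ext v
    show cx 0 0 (1 : Alg R) • v = v
    rw [← map_one (act R), (cx_act _ _ _).1]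
    simp [R.one_mem]
  map_mul' a b := by
    ext v
    obtain ⟨X, rfl⟩ := mk_surjective a
    obtain ⟨Y, rfl⟩ := mk_surjective b
    have hv : v ∈ S.G 0 := by rw [htop]; trivial
    have hd : ∀ t ∈ R.G 1, R.d t • v = 0 := by
      intro t ht
      have h1 : t • v = 0 := by
        have := S.smul_mem 1 0 t v ht hv
        rwa [h0 _ (by omega), Submodule.mem_bot] at this
      have h2 : S.d v = 0 := by
        have := S.d_mem 0 v hv
        rwa [h0 _ (by omega), Submodule.mem_bot] at this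
      have := S.d_smul t v
      simpa [h1, h2] using this.symm
    have hz : ((0 : Pos R) : ℕ) ≠ R.L := by simp [DGA.L]
    show cx 0 0 (mk X * mk Y) • v = cx 0 0 (mk X) • cx 0 0 (mk Y) • v
    rw [← map_mul]
    simp only [cx_mk, rawX_lt hz]
    rw [coe_mul_apply, Cross.sum_x, Finset.sum_smul, Finset.sum_eq_single (0 : Pos R)]
    · simp only [Cross.mul_x, add_smul, mul_smul]
      rw [R.d_zero_deg (by simpa using (Y.2 0 0).1)]
      simp
    · intro m _ hm
      have hm0 : 0 < (m : ℕ) := Nat.pos_of_ne_zero fun e => hm (Fin.ext e)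
      have hx : (X.1 0 m).x = 0 :=
        R.G_eq_bot (.inl (by have : ((0 : Pos R) : ℕ) = 0 := rfl; omega)) (X.2 0 m).1
      rw [Cross.mul_x, hx, zero_mul, zero_add, mul_smul]
      by_cases h1 : (m : ℕ) = 1
      · rw [hd _ (by have := (Y.2 m 0).1; simpa [h1] using this), smul_zero]
      · rw [R.G_eq_bot (.inl (by have : ((0 : Pos R) : ℕ) = 0 := rfl; omega)) (X.2 0 m).2, zero_smul]
    · exact fun h => absurd (Finset.mem_univ _) h

/-- A target in degree `0` as a module over the window algebra. -/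
@[reducible] noncomputable def moduleOfTarget {V : Type} [AddCommGroup V] [Module k V]
    [Module T V] (S : Target R V) (h0 : ∀ n : ℤ, n ≠ 0 → S.G n = ⊥) (htop : S.G 0 = ⊤) :
    Module (Alg R) V :=
  Module.compHom V (act00 S h0 htop)

/-- A target in degree `0` is its own model. -/
noncomputable def modelOfTarget {V : Type} [AddCommGroup V] [Module k V] [Module T V]
    (S : Target R V) (h0 : ∀ n : ℤ, n ≠ 0 → S.G n = ⊥) (htop : S.G 0 = ⊤) :
    @Model k T _ _ _ R V _ _ _ S V _ (moduleOfTarget S h0 htop) :=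
  letI := moduleOfTarget S h0 htop
  have hsmul : ∀ (a : Alg R) (v : V), a • v = cx 0 0 a • v := fun _ _ => rfl
  have hev : ∀ (n : ℤ) (v : V), ev R n • v = if n = 0 then v else 0 := by
    intro n v
    rw [hsmul, ← one_mul (ev R n), (cx_mul_ev _ _ _ _).1, ← map_one (act R), (cx_act _ _ _).1]
    simp [R.one_mem, eq_comm]
  { ι := AddMonoidHom.id V
    inj := Function.injective_id
    map_smul := fun a v => by
      show a • v = act R a • v
      rw [hsmul, (cx_act _ _ _).1]
      refine R.induction_on a (by simp) (fun a b ha hb => by simp [add_smul, ha, hb]) fun n b hb => ?_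
      rw [R.pr_of_mem hb]
      simp only [sub_self]
      split_ifs with h
      · rfl
      · have := S.smul_mem n 0 b v hb (by rw [htop]; trivial)
        rw [h0 _ (by omega), Submodule.mem_bot] at this
        simp [this]
    map_d := fun v => by
      show S.d v = del R • v
      have h := S.d_mem 0 v (by rw [htop]; trivial)
      rw [h0 _ (by omega), Submodule.mem_bot] at h
      rw [h, hsmul, ← one_mul (del R), (cx_mul_del_zero _ _ _ rfl).1, zero_smul]
    map_deg := fun n v hv => by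
      show ev R n • v = v
      rw [hev]
      split_ifs with hn
      · rfl
      · rw [h0 _ hn, Submodule.mem_bot] at hv; exact hv.symm
    lift := fun n z hz => by
      refine ⟨z, ?_, rfl⟩
      by_cases hn : n = 0
      · rw [hn, htop]; trivial
      · rw [hev, if_neg hn] at hz
        rw [← hz]; exact zero_mem _ }

end P195.Window
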